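import Vale.Agent.P338.R3.H334.FixQ

/-!
P338-D, module FIX: the same on arrays of real cells (as the machine has them).

A real array is `x : κ → Bool → Bool → ℕ → ℤ`: index `u : κ`, operand bit, real (`false`) or
imaginary (`true`) part, word number. Words number `≥ n` are ignored. The machine computes with
integers; only the rounding operations use the balanced residue `wrap b` of a word.
-/

namespace Vale.Agent.P338.R3.H334

open GaussianInt (toComplex)

/-- Real arrays. -/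
abbrev RArr (κ : Type) : Type := κ → Bool → Bool → ℕ → ℤ

section Real

variable {κ : Type} {n : ℕ}

/-- The array of Gaussian integers of a real array. -/
def toG (n : ℕ) (x : RArr κ) : (κ × Bool) × Fin n → GaussianInt :=
  fun j => ⟨x j.1.1 j.1.2 false j.2, x j.1.1 j.1.2 true j.2⟩

@[simp] theorem toG_re (x : RArr κ) (j : (κ × Bool) × Fin n) :
    (toG n x j).re = x j.1.1 j.1.2 false j.2 := rfl

@[simp] theorem toG_im (x : RArr κ) (j : (κ × Bool) × Fin n) :
    (toG n x j).im = x j.1.1 j.1.2 true j.2 := rfl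

theorem wrap_of_bd {b : ℕ} (hb : 1 ≤ b) {x : RArr κ} (h : Bd b (toG n x)) (u : κ) (o r : Bool)
    {j : ℕ} (hj : j < n) : wrap b (x u o r j) = x u o r j := by
  have h1 := h ((u, o), ⟨j, hj⟩)
  cases r
  · exact wrap_eq_self hb h1.1.1 h1.1.2
  · exact wrap_eq_self hb h1.2.1 h1.2.2

/-! ### Operations of the machine on real arrays -/

/-- Integer linear combinations of the cells. -/
def rLin (S : κ → Finset κ) (A : κ → κ → ℤ) (x : RArr κ) : RArr κ :=
  fun u o r j => ∑ v ∈ S u, A u v * x v o r j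

/-- Product of a word with a fixed point constant. -/
def mulWord (b s : ℕ) (c z : ℤ) : ℤ := wrap b z * wrap b c / 2 ^ s

/-- Multiplication of the cells by complex fixed point constants `C u o` (real part, imaginary
part), every real product being rounded down. -/
def rDiag (b s : ℕ) (C : κ → Bool → ℤ × ℤ) (x : RArr κ) : RArr κ :=
  fun u o r j =>
    if r then mulWord b s (C u o).2 (x u o false j) + mulWord b s (C u o).1 (x u o true j)
    else mulWord b s (C u o).1 (x u o false j) - mulWord b s (C u o).2 (x u o true j)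

/-- Product of two real cells, rounded. -/
def mulPoly (b s : ℕ) (x y : ℕ → ℤ) : ℕ → ℤ :=
  fun j => (∑ i ∈ Finset.range (j + 1), wrap b (x i) * wrap b (y (j - i))) / 2 ^ s

/-- The local product of the operands. -/
def rProd (b s : ℕ) (x : RArr κ) : RArr κ :=
  fun u o r j =>
    if o then 0 else
      if r then mulPoly b s (x u false false) (x u true true) j +
        mulPoly b s (x u false true) (x u true false) j
      else mulPoly b s (x u false false) (x u true false) j -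
        mulPoly b s (x u false true) (x u true true) j

/-- Multiplication by powers of two. -/
def rShl (e : κ → Bool → ℕ) (x : RArr κ) : RArr κ := fun u o r j => x u o r j * 2 ^ e u o

/-- Division by powers of two, rounded. -/
def rShr (b : ℕ) (e : κ → Bool → ℕ) (x : RArr κ) : RArr κ :=
  fun u o r j => wrap b (x u o r j) / 2 ^ e u o

/-! ### The operations on arrays of Gaussian integers -/

theorem intCast_re' (a : ℤ) : ((a : GaussianInt)).re = a := by simp

theorem intCast_im' (a : ℤ) : ((a : GaussianInt)).im = 0 := by simp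

theorem sum_re {ι : Type} (S : Finset ι) (f : ι → GaussianInt) :
    (∑ i ∈ S, f i).re = ∑ i ∈ S, (f i).re := by
  classical
  induction S using Finset.induction_on with
  | empty => simp
  | insert a S ha ih => rw [Finset.sum_insert ha, Finset.sum_insert ha, Zsqrtd.re_add, ih]

theorem sum_im {ι : Type} (S : Finset ι) (f : ι → GaussianInt) :
    (∑ i ∈ S, f i).im = ∑ i ∈ S, (f i).im := by
  classical
  induction S using Finset.induction_on with
  | empty => simp
  | insert a S ha ih => rw [Finset.sum_insert ha, Finset.sum_insert ha, Zsqrtd.im_add, ih]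

theorem toG_rLin (S : κ → Finset κ) (A : κ → κ → ℤ) (x : RArr κ) :
    toG n (rLin S A x) = fun j =>
      ∑ v ∈ S j.1.1, (A j.1.1 v : GaussianInt) * toG n x ((v, j.1.2), j.2) := by
  funext j
  apply Zsqrtd.ext
  · rw [toG_re, sum_re]
    simp [rLin, Zsqrtd.re_mul]
  · rw [toG_im, sum_im]
    simp [rLin, Zsqrtd.im_mul]

/-- The constants fit into `b` bits. -/
def CBd (b : ℕ) (C : κ → Bool → ℤ × ℤ) : Prop :=
  ∀ u o, (-2 ^ (b - 1) ≤ (C u o).1 ∧ (C u o).1 < 2 ^ (b - 1)) ∧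
    (-2 ^ (b - 1) ≤ (C u o).2 ∧ (C u o).2 < 2 ^ (b - 1))

theorem toG_rDiag {b s : ℕ} (hb : 1 ≤ b) {C : κ → Bool → ℤ × ℤ} (hC : CBd b C) {x : RArr κ}
    (hx : Bd b (toG n x)) :
    toG n (rDiag b s C x) = fun j =>
      rndMul s (⟨(C j.1.1 j.1.2).1, (C j.1.1 j.1.2).2⟩ : GaussianInt) (toG n x j) := by
  funext j
  have h1 := wrap_of_bd hb hx j.1.1 j.1.2 false j.2.2
  have h2 := wrap_of_bd hb hx j.1.1 j.1.2 true j.2.2
  have h3 := wrap_eq_self hb (hC j.1.1 j.1.2).1.1 (hC j.1.1 j.1.2).1.2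
  have h4 := wrap_eq_self hb (hC j.1.1 j.1.2).2.1 (hC j.1.1 j.1.2).2.2
  apply Zsqrtd.ext
  · simp only [toG_re, rDiag, mulWord, h1, h2, h3, h4, rndMul, toG_im, Bool.false_eq_true, if_false]
  · simp only [toG_re, rDiag, mulWord, h1, h2, h3, h4, rndMul, toG_im, if_true]

theorem two_pow_re_im (k : ℕ) :
    ((2 : GaussianInt) ^ k).re = 2 ^ k ∧ ((2 : GaussianInt) ^ k).im = 0 := by
  induction k with
  | zero => simp
  | succ k ih =>
    have h1 : (2 : GaussianInt).re = 2 := rfl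
    have h2 : (2 : GaussianInt).im = 0 := rfl
    constructor
    · rw [pow_succ, Zsqrtd.re_mul, ih.1, ih.2, h1, h2]
      ring
    · rw [pow_succ, Zsqrtd.im_mul, ih.1, ih.2, h1, h2]
      ring

theorem toG_rShl (e : κ → Bool → ℕ) (x : RArr κ) :
    toG n (rShl e x) = fun j => 2 ^ e j.1.1 j.1.2 * toG n x j := by
  funext j
  apply Zsqrtd.ext
  · rw [Zsqrtd.re_mul, (two_pow_re_im _).1, (two_pow_re_im _).2, toG_re, toG_re]
    unfold rShl
    ring
  · rw [Zsqrtd.im_mul, (two_pow_re_im _).1, (two_pow_re_im _).2, toG_im, toG_im]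
    unfold rShl
    ring

theorem toG_rShr {b : ℕ} (hb : 1 ≤ b) (e : κ → Bool → ℕ) {x : RArr κ} (hx : Bd b (toG n x)) :
    toG n (rShr b e x) = fun j => rnd (e j.1.1 j.1.2) (toG n x j) := by
  funext j
  have h1 := wrap_of_bd hb hx j.1.1 j.1.2 false j.2.2
  have h2 := wrap_of_bd hb hx j.1.1 j.1.2 true j.2.2
  apply Zsqrtd.ext
  · simp only [toG_re, rShr, h1, rnd_re]
  · simp only [toG_im, rShr, h2, rnd_im]

/-! ### Products of cells -/

theorem mulPoly_eq {b s : ℕ} {x y : ℕ → ℤ} {k : ℕ} (hx : ∀ i ≤ k, wrap b (x i) = x i)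
    (hy : ∀ i ≤ k, wrap b (y i) = y i) :
    mulPoly b s x y k = (∑ i ∈ Finset.range (k + 1), x i * y (k - i)) / 2 ^ s := by
  unfold mulPoly
  congr 1
  refine Finset.sum_congr rfl fun i hi => ?_
  rw [Finset.mem_range] at hi
  rw [hx i (by omega), hy (k - i) (by omega)]

theorem cellMul_range {R : Type} [CommSemiring R] (x y : ℕ → R) (k : Fin n) :
    cellMul n (fun a => x a) (fun a => y a) k =
      ∑ i ∈ Finset.range (k + 1), x i * y (k - i) := by
  rw [cellMul_eq]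
  rw [← Fin.sum_univ_eq_sum_range (fun i => x i * y (k - i)) (k + 1)]
  rw [← Finset.sum_subset (Finset.subset_univ (Finset.univ.filter fun a : Fin n => (a : ℕ) ≤ k))]
  · symm
    refine Finset.sum_bij' (fun (a : Fin (k + 1)) _ => (⟨a, by omega⟩ : Fin n))
      (fun (a : Fin n) ha => (⟨a, by
        simp only [Finset.mem_filter, Finset.mem_univ, true_and] at ha
        omega⟩ : Fin (k + 1))) ?_ ?_ ?_ ?_ ?_
    · intro a _
      simp only [Finset.mem_filter, Finset.mem_univ, true_and]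
      omega
    · intro a _
      simp
    · intro a _
      rfl
    · intro a _
      rfl
    · intro a _
      simp only
      rw [dif_pos (by omega)]
  · intro a _ ha
    simp only [Finset.mem_filter, Finset.mem_univ, true_and] at ha
    rw [dif_neg ha]

/-- The real part and the imaginary part of the product of two complex cells. -/
theorem locMul_re (x : RArr κ) (u : κ) (k : Fin n) :
    (locMul κ n (toG n x) ((u, false), k)).re =
      (∑ i ∈ Finset.range (k + 1), x u false false i * x u true false (k - i)) -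
      ∑ i ∈ Finset.range (k + 1), x u false true i * x u true true (k - i) := by
  unfold locMul
  simp only [Bool.false_eq_true, if_false]
  have h := cellMul_range (fun i => (⟨x u false false i, x u false true i⟩ : GaussianInt))
    (fun i => (⟨x u true false i, x u true true i⟩ : GaussianInt)) k
  change (cellMul n (fun a => (⟨x u false false a, x u false true a⟩ : GaussianInt))
    (fun a => (⟨x u true false a, x u true true a⟩ : GaussianInt)) k).re = _
  rw [h, sum_re, ← Finset.sum_sub_distrib]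
  refine Finset.sum_congr rfl fun i _ => ?_
  rw [Zsqrtd.re_mul]
  ring

theorem locMul_im (x : RArr κ) (u : κ) (k : Fin n) :
    (locMul κ n (toG n x) ((u, false), k)).im =
      (∑ i ∈ Finset.range (k + 1), x u false false i * x u true true (k - i)) +
      ∑ i ∈ Finset.range (k + 1), x u false true i * x u true false (k - i) := by
  unfold locMul
  simp only [Bool.false_eq_true, if_false]
  have h := cellMul_range (fun i => (⟨x u false false i, x u false true i⟩ : GaussianInt))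
    (fun i => (⟨x u true false i, x u true true i⟩ : GaussianInt)) k
  change (cellMul n (fun a => (⟨x u false false a, x u false true a⟩ : GaussianInt))
    (fun a => (⟨x u true false a, x u true true a⟩ : GaussianInt)) k).im = _
  rw [h, sum_im, ← Finset.sum_add_distrib]
  refine Finset.sum_congr rfl fun i _ => ?_
  rw [Zsqrtd.im_mul]

theorem norm_sub_le_of {z : GaussianInt} {w : GaussianInt} {s : ℕ} {κ : ℝ}
    (h1 : |(z.re : ℝ) - (w.re : ℝ) / 2 ^ s| ≤ κ) (h2 : |(z.im : ℝ) - (w.im : ℝ) / 2 ^ s| ≤ κ) :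
    ‖toComplex z - toComplex w / 2 ^ s‖ ≤ 2 * κ := by
  have h := Complex.norm_le_abs_re_add_abs_im (toComplex z - toComplex w / 2 ^ s)
  have e : toComplex w / 2 ^ s = ((((w.re : ℝ) / 2 ^ s : ℝ)) : ℂ) +
      ((((w.im : ℝ) / 2 ^ s : ℝ)) : ℂ) * Complex.I := by
    rw [GaussianInt.toComplex_def]
    push_cast
    ring
  have e1 : (toComplex z - toComplex w / 2 ^ s).re = (z.re : ℝ) - (w.re : ℝ) / 2 ^ s := by
    rw [e, Complex.sub_re, tc_re]
    simp only [Complex.add_re, Complex.ofReal_re, Complex.re_ofReal_mul, Complex.I_re, mul_zero,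
      add_zero]
  have e2 : (toComplex z - toComplex w / 2 ^ s).im = (z.im : ℝ) - (w.im : ℝ) / 2 ^ s := by
    rw [e, Complex.sub_im, tc_im]
    simp only [Complex.add_im, Complex.ofReal_im, Complex.im_ofReal_mul, Complex.I_im, mul_one,
      zero_add]
  rw [e1, e2] at h
  linarith

theorem abs_two_floor (s : ℕ) (a c : ℤ) :
    |((a / 2 ^ s - c / 2 ^ s : ℤ) : ℝ) - ((a - c : ℤ) : ℝ) / 2 ^ s| ≤ 2 ∧
    |((a / 2 ^ s + c / 2 ^ s : ℤ) : ℝ) - ((a + c : ℤ) : ℝ) / 2 ^ s| ≤ 2 := by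
  have h1 := abs_le.1 (abs_floor_le s a)
  have h2 := abs_le.1 (abs_floor_le s c)
  constructor
  · have e : ((a / 2 ^ s - c / 2 ^ s : ℤ) : ℝ) - ((a - c : ℤ) : ℝ) / 2 ^ s =
        (((a / 2 ^ s : ℤ) : ℝ) - (a : ℝ) / 2 ^ s) - (((c / 2 ^ s : ℤ) : ℝ) - (c : ℝ) / 2 ^ s) := by
      push_cast
      ring
    rw [e, abs_le]
    constructor <;> linarith [h1.1, h1.2, h2.1, h2.2]
  · have e : ((a / 2 ^ s + c / 2 ^ s : ℤ) : ℝ) - ((a + c : ℤ) : ℝ) / 2 ^ s =
        (((a / 2 ^ s : ℤ) : ℝ) - (a : ℝ) / 2 ^ s) + (((c / 2 ^ s : ℤ) : ℝ) - (c : ℝ) / 2 ^ s) := by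
      push_cast
      ring
    rw [e, abs_le]
    constructor <;> linarith [h1.1, h1.2, h2.1, h2.2]

/-- The product of the machine is within 4 units of the exact product. -/
theorem rProd_close {b s : ℕ} (hb : 1 ≤ b) {x : RArr κ} (hx : Bd b (toG n x))
    (j : (κ × Bool) × Fin n) :
    ‖toComplex (toG n (rProd b s x) j) - toComplex (locMul κ n (toG n x) j) / 2 ^ s‖ ≤ 4 := by
  obtain ⟨⟨u, o⟩, k⟩ := j
  have hw : ∀ o r, ∀ i ≤ (k : ℕ), wrap b (x u o r i) = x u o r i := fun o r i hi =>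
    wrap_of_bd hb hx u o r (by omega)
  cases o
  · refine (norm_sub_le_of (κ := 2) ?_ ?_).trans (by norm_num)
    · rw [locMul_re]
      simp only [toG_re, rProd, Bool.false_eq_true, if_false]
      rw [mulPoly_eq (hw _ _) (hw _ _), mulPoly_eq (hw _ _) (hw _ _)]
      exact (abs_two_floor s _ _).1
    · rw [locMul_im]
      simp only [toG_im, rProd, Bool.false_eq_true, if_false, if_true]
      rw [mulPoly_eq (hw _ _) (hw _ _), mulPoly_eq (hw _ _) (hw _ _)]
      exact (abs_two_floor s _ _).2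
  · have h1 : toG n (rProd b s x) ((u, true), k) = 0 := by
      apply Zsqrtd.ext <;> simp [rProd]
    have h2 : locMul κ n (toG n x) ((u, true), k) = 0 := by simp [locMul]
    rw [h1, h2]
    simp

/-- The final rounding. -/
def roundWord (b s : ℕ) (z : ℤ) : ℤ := (wrap b z + 2 ^ (s - 1)) / 2 ^ s

theorem roundRe_eq_roundWord {s : ℕ} (hs : 1 ≤ s) (z : GaussianInt) :
    roundRe s z = (z.re + 2 ^ (s - 1)) / 2 ^ s := by
  obtain ⟨t, rfl⟩ : ∃ t, s = t + 1 := ⟨s - 1, by omega⟩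
  unfold roundRe
  rw [Nat.add_sub_cancel]
  have e1 : 2 * z.re + 2 ^ (t + 1) = 2 * (z.re + 2 ^ t) := by ring
  have e2 : (2 : ℤ) ^ (t + 1 + 1) = 2 * 2 ^ (t + 1) := by ring
  rw [e1, e2, Int.mul_ediv_mul_of_pos _ _ (by norm_num)]

end Real

/-! ### Steps on real arrays, and the whole computation -/

section Whole

variable {κ : Type} [Fintype κ] {n : ℕ}

/-- A step on real arrays: the exact map, the map of Gaussian arrays, the map of the machine. -/
structure RStep (κ : Type) [Fintype κ] (n : ℕ) extends AStep ((κ × Bool) × Fin n) where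
  /-- the map of the machine -/
  mz : RArr κ → RArr κ

/-- A correct step. -/
structure RStep.Ok (b s : ℕ) (ε ρ : ℝ) (st : RStep κ n) : Prop where
  ok : Step.Ok (reA s) ε ρ st.toStep
  mz : ∀ x, Bd b (toG n x) → toG n (st.mz x) = st.it (toG n x)

/-- The run of the machine. -/
def mzRun (l : List (RStep κ n)) (x : RArr κ) : RArr κ := l.foldl (fun x st => st.mz x) x

/-- The underlying steps. -/
def steps (l : List (RStep κ n)) : List (AStep ((κ × Bool) × Fin n)) := l.map RStep.toStep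

theorem mzRun_eq {b s : ℕ} {ε ρ : ℝ} {l : List (RStep κ n)} (hl : ∀ st ∈ l, st.Ok b s ε ρ)
    {x : RArr κ} (hbd : ∀ k ≤ l.length, Bd b (itRun ((steps l).take k) (toG n x))) :
    toG n (mzRun l x) = itRun (steps l) (toG n x) := by
  induction l using List.reverseRecOn with
  | nil => rfl
  | append_singleton l a ih =>
    have hlen : (steps l).length = l.length := by simp [steps]
    have h1 : ∀ k ≤ l.length, Bd b (itRun ((steps l).take k) (toG n x)) := by
      intro k hk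
      have := hbd k (by simp; omega)
      have e : steps (l ++ [a]) = steps l ++ [a.toStep] := by simp [steps]
      rwa [e, List.take_append_of_le_length (by omega)] at this
    have h2 := ih (fun st hst => hl st (by simp [hst])) h1
    have e1 : mzRun (l ++ [a]) x = a.mz (mzRun l x) := by simp [mzRun]
    have e2 : itRun (steps (l ++ [a])) (toG n x) = a.it (itRun (steps l) (toG n x)) := by
      simp [itRun, steps]
    have h3 := h1 l.length le_rfl
    rw [← hlen, List.take_length] at h3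
    rw [e1, e2, (hl a (by simp)).mz _ (by rw [h2]; exact h3), h2]

/-- **FIX, final form for the machine**: the result of the machine fits into the words, and its
error is at most `1/8`. -/
theorem whole_close {s b c ν Λ w g : ℕ} {ε ρ : ℝ} (hε : 0 ≤ ε) (hρ : 4 / 2 ^ s ≤ ρ)
    (hε' : ε ≤ 2 ^ c / 2 ^ s) (hρ' : ρ ≤ 2 ^ c / 2 ^ s) {l₁ l₂ : List (RStep κ n)}
    (h₁ : ∀ st ∈ l₁, st.Ok b s ε ρ) (h₂ : ∀ st ∈ l₂, st.Ok b s ε ρ)
    (hK₁ : prodK (steps l₁) ≤ 2 ^ Λ) (hK₂ : prodK (steps l₂) ≤ 2 ^ Λ) (hm : (n : ℝ) ≤ 2 ^ g)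
    (hn₁ : (l₁.length : ℝ) ≤ 2 ^ ν) (hn₂ : (l₂.length : ℝ) ≤ 2 ^ ν)
    (hs : 3 * Λ + 2 * w + g + ν + c + 7 ≤ s) (hb : s + 3 * Λ + 2 * w + g + 10 ≤ b)
    {x : RArr κ} (hX : ‖reA s (toG n x)‖ ≤ 2 ^ w) :
    Bd b (toG n (mzRun l₂ (rProd b s (mzRun l₁ x)))) ∧
    ‖reA s (toG n (mzRun l₂ (rProd b s (mzRun l₁ x)))) -
      exRun (steps l₂) (locMul κ n (exRun (steps l₁) (reA s (toG n x))))‖ ≤ 1 / 8 := by
  have hρ0 : 0 ≤ ρ := le_trans (by positivity) hρ
  have hb1 : 1 ≤ b := by omega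
  have hsν : ν + c ≤ s := by omega
  have g₁ : ∀ st ∈ steps l₁, Step.Ok (reA s) ε ρ st := by
    intro st hst
    obtain ⟨r, hr, rfl⟩ := List.mem_map.1 hst
    exact (h₁ r hr).ok
  have g₂ : ∀ st ∈ steps l₂, Step.Ok (reA s) ε ρ st := by
    intro st hst
    obtain ⟨r, hr, rfl⟩ := List.mem_map.1 hst
    exact (h₂ r hr).ok
  have hn₁' : ((steps l₁).length : ℝ) ≤ 2 ^ ν := by simpa [steps] using hn₁
  have hn₂' : ((steps l₂).length : ℝ) ≤ 2 ^ ν := by simpa [steps] using hn₂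
  have q := run_bd hε hρ0 hε' hρ' g₁ hK₁ hn₁' hsν hX
  have x1 : toG n (mzRun l₁ x) = itRun (steps l₁) (toG n x) :=
    mzRun_eq h₁ fun k _ => bd_of_norm (l := Λ + w + 2) (s := s) (by omega) (q k)
  have x2 : ‖reA s (itRun (steps l₁) (toG n x))‖ ≤ 2 ^ (Λ + w + 2) := by
    have := q (steps l₁).length
    rwa [List.take_length] at this
  have x3 : Bd b (toG n (mzRun l₁ x)) := by
    rw [x1]
    exact bd_of_norm (l := Λ + w + 2) (s := s) (by omega) x2
  -- the integer map of the product: what the machine does if the array fits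
  classical
  set f : ((κ × Bool) × Fin n → GaussianInt) → (κ × Bool) × Fin n → GaussianInt := fun X =>
    if X = toG n (mzRun l₁ x) then toG n (rProd b s (mzRun l₁ x)) else
      fun j => rnd s (locMul κ n X j) with hf
  have hfK : locMulK κ n s 4 f := by
    intro X j
    rw [hf]
    simp only
    split_ifs with h
    · rw [h]
      exact rProd_close hb1 x3 j
    · exact (norm_rnd_sub s _).trans (by norm_num)
  have hQ := qOk_loc κ n s (by norm_num) hfK
  set Z := f (itRun (steps l₁) (toG n x)) with hZ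
  have hZ2 : Z = toG n (rProd b s (mzRun l₁ x)) := by
    rw [hZ, ← x1, hf]
    simp
  have h4 : (4 : ℝ) / 2 ^ s ≤ 1 := by
    refine (hρ.trans hρ').trans ?_
    exact div_le_one_of_le₀ (pow_le_pow_right₀ (by norm_num) (by omega)) (by positivity)
  have z1 : ‖reA s Z‖ ≤ 2 ^ (g + 2 * Λ + 2 * w + 5) := by
    have a1 := hQ.close (itRun (steps l₁) (toG n x))
    have a2 := hQ.le (reA s (itRun (steps l₁) (toG n x)))
    have a3 : ‖reA s Z‖ ≤ ‖reA s Z - locMul κ n (reA s (itRun (steps l₁) (toG n x)))‖ +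
        ‖locMul κ n (reA s (itRun (steps l₁) (toG n x)))‖ := by
      have := norm_add_le (reA s Z - locMul κ n (reA s (itRun (steps l₁) (toG n x))))
        (locMul κ n (reA s (itRun (steps l₁) (toG n x))))
      simpa using this
    have a4 : (n : ℝ) * ‖reA s (itRun (steps l₁) (toG n x))‖ ^ 2 ≤
        2 ^ g * (2 ^ (Λ + w + 2)) ^ 2 :=
      mul_le_mul hm (pow_le_pow_left₀ (norm_nonneg _) x2 2) (by positivity) (by positivity)
    have a5 : (2 : ℝ) ^ g * (2 ^ (Λ + w + 2)) ^ 2 = 2 ^ (g + 2 * Λ + 2 * w + 4) := by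
      ring
    have a6 : (1 : ℝ) ≤ 2 ^ (g + 2 * Λ + 2 * w + 4) := one_le_pow₀ (by norm_num)
    have a7 : (2 : ℝ) ^ (g + 2 * Λ + 2 * w + 5) = 2 * 2 ^ (g + 2 * Λ + 2 * w + 4) := by ring
    rw [a7]
    linarith
  have q2 := run_bd hε hρ0 hε' hρ' g₂ hK₂ hn₂' hsν z1
  have z3 : toG n (mzRun l₂ (rProd b s (mzRun l₁ x))) = itRun (steps l₂) Z := by
    rw [hZ2]
    refine mzRun_eq h₂ fun k _ => ?_
    rw [← hZ2]
    exact bd_of_norm (l := Λ + (g + 2 * Λ + 2 * w + 5) + 2) (s := s) (by omega) (q2 k)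
  have z4 : Bd b (toG n (mzRun l₂ (rProd b s (mzRun l₁ x)))) := by
    rw [z3]
    have := q2 (steps l₂).length
    rw [List.take_length] at this
    exact bd_of_norm (l := Λ + (g + 2 * Λ + 2 * w + 5) + 2) (s := s) (by omega) this
  have hQ' : QOk (reA s) (locMul κ n) f (n : ℝ) ρ :=
    ⟨hQ.nonneg, hQ.le, hQ.lip, fun X => (hQ.close X).trans hρ⟩
  obtain ⟨e, e1, e2, e3⟩ := quarter_arith (w := w) (Λ := Λ) (ν := ν) (c := c) (g := g) (s := s)
    hε hρ0 hε' hρ' (one_le_prodK g₁) (one_le_prodK g₂) hK₁ hK₂ (Nat.cast_nonneg n) hm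
    (Nat.cast_nonneg _) (Nat.cast_nonneg _) hn₁' hn₂' hs
  have hq := (qpipe_close hε hρ0 g₁ g₂ hQ' (X := toG n x) rfl hX e1 e2).trans e3
  rw [← hZ, ← z3] at hq
  exact ⟨z4, hq⟩

/-- From an error of `1/8` to the words. -/
theorem word_close {b s : ℕ} (hb : 1 ≤ b) (hs : 3 ≤ s) {x : RArr κ} (hx : Bd b (toG n x))
    {y : (κ × Bool) × Fin n → ℂ} (hxy : ‖reA s (toG n x) - y‖ ≤ 1 / 8) {u : κ} {o : Bool}
    {j : Fin n} {k : ℤ} (hk : y ((u, o), j) = (k : ℂ)) :
    |wrap b (x u o false j) - 2 ^ s * k| ≤ 2 ^ (s - 3) ∧ |wrap b (x u o true j)| ≤ 2 ^ (s - 3) := by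
  have h1 := (norm_le_pi_norm (reA s (toG n x) - y) ((u, o), j)).trans hxy
  rw [Pi.sub_apply, hk] at h1
  obtain ⟨t, rfl⟩ : ∃ t, s = t + 3 := ⟨s - 3, by omega⟩
  rw [Nat.add_sub_cancel, wrap_of_bd hb hx u o false j.2, wrap_of_bd hb hx u o true j.2]
  have e : reA (t + 3) (toG n x) ((u, o), j) - (k : ℂ) =
      (((((x u o false j : ℤ) : ℝ) / 2 ^ (t + 3) - k : ℝ)) : ℂ) +
      (((((x u o true j : ℤ) : ℝ) / 2 ^ (t + 3) : ℝ)) : ℂ) * Complex.I := by
    rw [reA, reC, GaussianInt.toComplex_def]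
    simp only [toG_re, toG_im]
    push_cast
    ring
  rw [e] at h1
  have h2 := (Complex.abs_re_le_norm _).trans h1
  have h3 := (Complex.abs_im_le_norm _).trans h1
  simp only [Complex.add_re, Complex.ofReal_re, Complex.re_ofReal_mul, Complex.I_re, mul_zero,
    add_zero] at h2
  simp only [Complex.add_im, Complex.ofReal_im, Complex.im_ofReal_mul, Complex.I_im, mul_one,
    zero_add] at h3
  have h4 : (0 : ℝ) < 2 ^ (t + 3) := by positivity
  have h5 : (2 : ℝ) ^ (t + 3) = 8 * 2 ^ t := by ring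
  constructor
  · have : |((x u o false j : ℤ) : ℝ) - 2 ^ (t + 3) * k| ≤ 2 ^ t := by
      have e2 : ((x u o false j : ℤ) : ℝ) - 2 ^ (t + 3) * k =
          2 ^ (t + 3) * (((x u o false j : ℤ) : ℝ) / 2 ^ (t + 3) - k) := by
        field_simp
      rw [e2, abs_mul, abs_of_pos h4]
      nlinarith
    exact_mod_cast this
  · have : |((x u o true j : ℤ) : ℝ)| ≤ 2 ^ t := by
      have e2 : ((x u o true j : ℤ) : ℝ) =
          2 ^ (t + 3) * (((x u o true j : ℤ) : ℝ) / 2 ^ (t + 3)) := by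
        field_simp
      rw [e2, abs_mul, abs_of_pos h4]
      nlinarith
    exact_mod_cast this

/-- The rounded result. -/
theorem whole_real {s b c ν Λ w g : ℕ} {ε ρ : ℝ} (hε : 0 ≤ ε) (hρ : 4 / 2 ^ s ≤ ρ)
    (hε' : ε ≤ 2 ^ c / 2 ^ s) (hρ' : ρ ≤ 2 ^ c / 2 ^ s) {l₁ l₂ : List (RStep κ n)}
    (h₁ : ∀ st ∈ l₁, st.Ok b s ε ρ) (h₂ : ∀ st ∈ l₂, st.Ok b s ε ρ)
    (hK₁ : prodK (steps l₁) ≤ 2 ^ Λ) (hK₂ : prodK (steps l₂) ≤ 2 ^ Λ) (hm : (n : ℝ) ≤ 2 ^ g)
    (hn₁ : (l₁.length : ℝ) ≤ 2 ^ ν) (hn₂ : (l₂.length : ℝ) ≤ 2 ^ ν)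
    (hs : 3 * Λ + 2 * w + g + ν + c + 7 ≤ s) (hb : s + 3 * Λ + 2 * w + g + 10 ≤ b)
    {x : RArr κ} (hX : ‖reA s (toG n x)‖ ≤ 2 ^ w) {k : (κ × Bool) × Fin n → ℤ}
    (hk : exRun (steps l₂) (locMul κ n (exRun (steps l₁) (reA s (toG n x)))) =
      fun j => (k j : ℂ)) (u : κ) (o : Bool) (j : Fin n) :
    roundWord b s (mzRun l₂ (rProd b s (mzRun l₁ x)) u o false j) = k ((u, o), j) := by
  obtain ⟨z4, hq⟩ := whole_close hε hρ hε' hρ' h₁ h₂ hK₁ hK₂ hm hn₁ hn₂ hs hb hX
  rw [hk] at hq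
  have h5 := roundRe_eq (((norm_le_pi_norm _ ((u, o), j)).trans hq).trans (by norm_num))
  rw [roundRe_eq_roundWord (by omega)] at h5
  unfold roundWord
  rw [wrap_of_bd (by omega) z4 u o false j.2]
  exact h5

/-! ### The steps -/

/-- Integer linear combinations with coefficients `0, ±1`, at most `2 ^ l` terms. -/
noncomputable def stLin (n : ℕ) (S : κ → Finset κ) (A : κ → κ → ℤ) (l : ℕ) : RStep κ n where
  ex x := fun j => ∑ v ∈ S j.1.1, (A j.1.1 v : ℂ) * x ((v, j.1.2), j.2)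
  it X := fun j => ∑ v ∈ S j.1.1, (A j.1.1 v : GaussianInt) * X ((v, j.1.2), j.2)
  K := 2 ^ l
  mz := rLin S A

theorem ok_stLin {b s : ℕ} {ε ρ : ℝ} (hε : 0 ≤ ε) (hρ : 0 ≤ ρ) {S : κ → Finset κ}
    {A : κ → κ → ℤ} {l : ℕ} (hA : ∀ u, ∀ v ∈ S u, |A u v| ≤ 1) (hS : ∀ u, (S u).card ≤ 2 ^ l) :
    (stLin n S A l).Ok b s ε ρ := by
  refine ⟨?_, fun x _ => toG_rLin S A x⟩
  refine ok_of_linear hε hρ _ (one_le_pow₀ (by norm_num)) ?_ ?_ ?_
  · intro x y
    funext j
    simp [stLin, mul_sub, Finset.sum_sub_distrib]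
  · intro x
    rw [pi_norm_le_iff_of_nonneg (mul_nonneg (by simp [stLin]) (norm_nonneg _))]
    intro j
    simp only [stLin]
    calc ‖∑ v ∈ S j.1.1, (A j.1.1 v : ℂ) * x ((v, j.1.2), j.2)‖
        ≤ ∑ v ∈ S j.1.1, ‖(A j.1.1 v : ℂ) * x ((v, j.1.2), j.2)‖ := norm_sum_le _ _
      _ ≤ ∑ _v ∈ S j.1.1, ‖x‖ := by
          refine Finset.sum_le_sum fun v hv => ?_
          rw [norm_mul, Complex.norm_intCast]
          have h1 : |(A j.1.1 v : ℝ)| ≤ 1 := by exact_mod_cast hA _ v hv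
          have h2 := norm_le_pi_norm x ((v, j.1.2), j.2)
          have h3 := norm_nonneg (x ((v, j.1.2), j.2))
          calc |(A j.1.1 v : ℝ)| * ‖x ((v, j.1.2), j.2)‖ ≤ 1 * ‖x‖ :=
                mul_le_mul h1 h2 h3 (by norm_num)
            _ = ‖x‖ := one_mul _
      _ = (S j.1.1).card * ‖x‖ := by simp
      _ ≤ 2 ^ l * ‖x‖ :=
          mul_le_mul_of_nonneg_right (by exact_mod_cast hS _) (norm_nonneg _)
  · intro X
    funext j
    simp only [stLin, reA]
    rw [reC_sum]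
    exact Finset.sum_congr rfl fun v _ => reC_intMul _ _ _

/-- The general integer linear step: only the number bound of the absolute coefficients. -/
theorem ok_stLin' {b s : ℕ} {ε ρ : ℝ} (hε : 0 ≤ ε) (hρ : 0 ≤ ρ) {S : κ → Finset κ}
    {A : κ → κ → ℤ} {l : ℕ} (hA : ∀ u, ∑ v ∈ S u, |(A u v : ℝ)| ≤ 2 ^ l) :
    (stLin n S A l).Ok b s ε ρ := by
  refine ⟨?_, fun x _ => toG_rLin S A x⟩
  refine ok_of_linear hε hρ _ (one_le_pow₀ (by norm_num)) ?_ ?_ ?_
  · intro x y
    funext j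
    simp [stLin, mul_sub, Finset.sum_sub_distrib]
  · intro x
    rw [pi_norm_le_iff_of_nonneg (mul_nonneg (by simp [stLin]) (norm_nonneg _))]
    intro j
    simp only [stLin]
    calc ‖∑ v ∈ S j.1.1, (A j.1.1 v : ℂ) * x ((v, j.1.2), j.2)‖
        ≤ ∑ v ∈ S j.1.1, ‖(A j.1.1 v : ℂ) * x ((v, j.1.2), j.2)‖ := norm_sum_le _ _
      _ ≤ ∑ v ∈ S j.1.1, |(A j.1.1 v : ℝ)| * ‖x‖ := by
          refine Finset.sum_le_sum fun v _ => ?_
          rw [norm_mul, Complex.norm_intCast]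
          exact mul_le_mul_of_nonneg_left (norm_le_pi_norm x _) (abs_nonneg _)
      _ = (∑ v ∈ S j.1.1, |(A j.1.1 v : ℝ)|) * ‖x‖ := (Finset.sum_mul _ _ _).symm
      _ ≤ 2 ^ l * ‖x‖ := mul_le_mul_of_nonneg_right (hA _) (norm_nonneg _)
  · intro X
    funext j
    simp only [stLin, reA]
    rw [reC_sum]
    exact Finset.sum_congr rfl fun v _ => reC_intMul _ _ _

/-- Multiplication by complex constants. -/
noncomputable def stDiag (n b s : ℕ) (C : κ → Bool → ℤ × ℤ) (c : κ → Bool → ℂ) (l : ℕ) :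
    RStep κ n where
  ex x := fun j => c j.1.1 j.1.2 * x j
  it X := fun j => rndMul s (⟨(C j.1.1 j.1.2).1, (C j.1.1 j.1.2).2⟩ : GaussianInt) (X j)
  K := 2 ^ l
  mz := rDiag b s C

theorem ok_stDiag {b s : ℕ} {ε ρ : ℝ} (hb : 1 ≤ b) (hε : 0 ≤ ε) (hρ : 4 / 2 ^ s ≤ ρ)
    {C : κ → Bool → ℤ × ℤ} {c : κ → Bool → ℂ} {l : ℕ} (hCb : CBd b C)
    (hc : ∀ u o, ‖c u o‖ ≤ 2 ^ l)
    (hC : ∀ u o, ‖reC s (⟨(C u o).1, (C u o).2⟩ : GaussianInt)‖ ≤ 2 ^ l)
    (hcC : ∀ u o, ‖reC s (⟨(C u o).1, (C u o).2⟩ : GaussianInt) - c u o‖ ≤ ε) :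
    (stDiag n b s C c l).Ok b s ε ρ := by
  refine ⟨?_, fun x hx => toG_rDiag hb hCb hx⟩
  have hK : (1 : ℝ) ≤ 2 ^ l := one_le_pow₀ (by norm_num)
  have hit : ∀ (X : (κ × Bool) × Fin n → GaussianInt) (j : (κ × Bool) × Fin n),
      ‖toComplex ((stDiag n b s C c l).toStep.it X j) -
        toComplex (⟨(C j.1.1 j.1.2).1, (C j.1.1 j.1.2).2⟩ : GaussianInt) * toComplex (X j) /
          2 ^ s‖ ≤ 4 := fun X j =>
    norm_rndMul_sub s (⟨(C j.1.1 j.1.2).1, (C j.1.1 j.1.2).2⟩ : GaussianInt) (X j)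
  have hex : ∀ (x : (κ × Bool) × Fin n → ℂ) (j : (κ × Bool) × Fin n),
      (stDiag n b s C c l).toStep.ex x j = c j.1.1 j.1.2 * x j := fun _ _ => rfl
  exact ok_diag (p := s) (κ := 4) (st := (stDiag n b s C c l).toStep) hε (by norm_num) hρ hex hit
    hK (fun j => hc _ _) (fun j => hC _ _) (fun j => hcC _ _)

/-- Multiplication by powers of two. -/
noncomputable def stShl (n : ℕ) (e : κ → Bool → ℕ) (l : ℕ) : RStep κ n where
  ex x := fun j => 2 ^ e j.1.1 j.1.2 * x j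
  it X := fun j => 2 ^ e j.1.1 j.1.2 * X j
  K := 2 ^ l
  mz := rShl e

theorem ok_stShl {b s : ℕ} {ε ρ : ℝ} (hε : 0 ≤ ε) (hρ : 0 ≤ ρ) {e : κ → Bool → ℕ} {l : ℕ}
    (he : ∀ u o, e u o ≤ l) : (stShl n e l).Ok b s ε ρ :=
  ⟨ok_upStep (e := fun j : (κ × Bool) × Fin n => e j.1.1 j.1.2) hε hρ fun _ => he _ _,
    fun x _ => toG_rShl e x⟩

/-- Division by powers of two. -/
noncomputable def stShr (n b : ℕ) (e : κ → Bool → ℕ) : RStep κ n where
  ex x := fun j => x j / 2 ^ e j.1.1 j.1.2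
  it X := fun j => rnd (e j.1.1 j.1.2) (X j)
  K := 1
  mz := rShr b e

theorem ok_stShr {b s : ℕ} {ε ρ : ℝ} (hb : 1 ≤ b) (hε : 0 ≤ ε) (hρ : 4 / 2 ^ s ≤ ρ)
    (e : κ → Bool → ℕ) : (stShr n b e).Ok b s ε ρ :=
  ⟨ok_downStep hε (le_trans (by gcongr; norm_num) hρ) _, fun x hx => toG_rShr hb e hx⟩

end Whole

end Vale.Agent.P338.R3.H334
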