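import Vale.Agent.P338.R3.H334.FixMod

/-!
P338-D, module FIX: the version with ONE array and a local (quadratic) product.

The array has an index `κ × Bool` (the `Bool` is the operand bit: `false` = operand `x`,
`true` = operand `y`). Both operands are transformed by the same steps; the local product
replaces the cell `(u, false)` by the product of the cells `(u, false)` and `(u, true)`, and
clears the cell `(u, true)`.
-/

namespace Vale.Agent.P338.R3.H334

open GaussianInt (toComplex)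

section Abstract

variable {Z E : Type} [NormedAddCommGroup E]

/-- A quadratic operation with rounding. -/
structure QOk (re : Z → E) (qe : E → E) (qi : Z → Z) (P ρ : ℝ) : Prop where
  nonneg : 0 ≤ P
  le : ∀ x, ‖qe x‖ ≤ P * ‖x‖ ^ 2
  lip : ∀ x y, ‖qe x - qe y‖ ≤ P * (‖x‖ + ‖y‖) * ‖x - y‖
  close : ∀ X, ‖re (qi X) - qe (re X)‖ ≤ ρ

variable {re : Z → E} {qe : E → E} {qi : Z → Z} {P ρ ε : ℝ}

/-- **Error of the whole pipeline.** -/
theorem qpipe_close (hε : 0 ≤ ε) (hρ : 0 ≤ ρ) {l₁ l₂ : List (Step Z E)}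
    (h₁ : ∀ st ∈ l₁, Step.Ok re ε ρ st) (h₂ : ∀ st ∈ l₂, Step.Ok re ε ρ st)
    (hq : QOk re qe qi P ρ) {X : Z} {x : E} (hX : re X = x)
    {R e : ℝ} (hx : ‖x‖ ≤ R)
    (he : prodK l₁ * (l₁.length * (ε * R + ρ)) ≤ e) (he1 : e ≤ prodK l₁ * R) :
    ‖re (itRun l₂ (qi (itRun l₁ X))) - exRun l₂ (qe (exRun l₁ x))‖ ≤
      prodK l₂ * ((P * e * (3 * (prodK l₁ * R)) + ρ) +
        l₂.length * (ε * (P * (prodK l₁ * R) ^ 2) + ρ)) := by
  have hK := one_le_prodK h₁
  have hK2 := one_le_prodK h₂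
  have hR : 0 ≤ R := (norm_nonneg _).trans hx
  have hP := hq.nonneg
  obtain ⟨a1, a2⟩ := run_close hε hρ h₁ X x
  have x1 : ‖exRun l₁ x‖ ≤ prodK l₁ * R :=
    a1.trans (mul_le_mul_of_nonneg_left hx (by linarith))
  have x2 : ‖re (itRun l₁ X) - exRun l₁ x‖ ≤ e := by
    refine a2.trans (le_trans ?_ he)
    rw [hX, sub_self, norm_zero, zero_add]
    refine mul_le_mul_of_nonneg_left ?_ (by linarith)
    refine mul_le_mul_of_nonneg_left ?_ (by positivity)
    have := mul_le_mul_of_nonneg_left hx hε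
    linarith
  have x3 : ‖re (itRun l₁ X)‖ ≤ 2 * (prodK l₁ * R) := by
    have h3 : ‖re (itRun l₁ X)‖ ≤ ‖re (itRun l₁ X) - exRun l₁ x‖ + ‖exRun l₁ x‖ := by
      have := norm_add_le (re (itRun l₁ X) - exRun l₁ x) (exRun l₁ x)
      simpa using this
    linarith
  have he0 : 0 ≤ e := (norm_nonneg _).trans x2
  obtain ⟨p1, p2⟩ := run_close hε hρ h₂ (qi (itRun l₁ X)) (qe (exRun l₁ x))
  refine p2.trans (mul_le_mul_of_nonneg_left ?_ (by linarith))
  have q1 : ‖re (qi (itRun l₁ X)) - qe (exRun l₁ x)‖ ≤ P * e * (3 * (prodK l₁ * R)) + ρ := by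
    have b1 := hq.close (itRun l₁ X)
    have b2 := hq.lip (re (itRun l₁ X)) (exRun l₁ x)
    have b3 : ‖re (qi (itRun l₁ X)) - qe (exRun l₁ x)‖ ≤
        ‖re (qi (itRun l₁ X)) - qe (re (itRun l₁ X))‖ +
        ‖qe (re (itRun l₁ X)) - qe (exRun l₁ x)‖ := by
      have := norm_add_le (re (qi (itRun l₁ X)) - qe (re (itRun l₁ X)))
        (qe (re (itRun l₁ X)) - qe (exRun l₁ x))
      simpa using this
    have b4 : P * (‖re (itRun l₁ X)‖ + ‖exRun l₁ x‖) * ‖re (itRun l₁ X) - exRun l₁ x‖ ≤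
        P * (3 * (prodK l₁ * R)) * e :=
      mul_le_mul (mul_le_mul_of_nonneg_left (by linarith) hP) x2 (norm_nonneg _)
        (by positivity)
    have b5 : P * (3 * (prodK l₁ * R)) * e = P * e * (3 * (prodK l₁ * R)) := by ring
    linarith
  have q4 : ‖qe (exRun l₁ x)‖ ≤ P * (prodK l₁ * R) ^ 2 := by
    refine (hq.le _).trans (mul_le_mul_of_nonneg_left ?_ hP)
    exact pow_le_pow_left₀ (norm_nonneg _) x1 2
  have q5 : ε * ‖qe (exRun l₁ x)‖ ≤ ε * (P * (prodK l₁ * R) ^ 2) :=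
    mul_le_mul_of_nonneg_left q4 hε
  have q6 : (l₂.length : ℝ) * (ε * ‖qe (exRun l₁ x)‖ + ρ) ≤
      l₂.length * (ε * (P * (prodK l₁ * R) ^ 2) + ρ) :=
    mul_le_mul_of_nonneg_left (by linarith) (by positivity)
  linarith

/-- The arithmetic of the dyadic bounds. -/
theorem quarter_arith {K₁ K₂ n₁ n₂ : ℝ} {Λ w g ν c s : ℕ} (hε : 0 ≤ ε) (hρ : 0 ≤ ρ)
    (hε' : ε ≤ 2 ^ c / 2 ^ s) (hρ' : ρ ≤ 2 ^ c / 2 ^ s) (k1 : 1 ≤ K₁) (k2 : 1 ≤ K₂)
    (hK₁ : K₁ ≤ 2 ^ Λ) (hK₂ : K₂ ≤ 2 ^ Λ) (hP0 : 0 ≤ P) (hP : P ≤ 2 ^ g) (hn₁0 : 0 ≤ n₁)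
    (hn₂0 : 0 ≤ n₂) (hn₁ : n₁ ≤ 2 ^ ν) (hn₂ : n₂ ≤ 2 ^ ν)
    (hs : 3 * Λ + 2 * w + g + ν + c + 7 ≤ s) :
    ∃ e : ℝ, K₁ * (n₁ * (ε * 2 ^ w + ρ)) ≤ e ∧ e ≤ K₁ * 2 ^ w ∧
      K₂ * ((P * e * (3 * (K₁ * 2 ^ w)) + ρ) + n₂ * (ε * (P * (K₁ * 2 ^ w) ^ 2) + ρ)) ≤
        1 / 8 := by
  set L : ℝ := 2 ^ Λ with hL
  set W : ℝ := 2 ^ w with hW
  set G : ℝ := 2 ^ g with hG
  set N : ℝ := 2 ^ ν with hN
  set δ : ℝ := 2 ^ c / 2 ^ s with hδ
  have hL1 : 1 ≤ L := one_le_pow₀ (by norm_num)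
  have hW1 : 1 ≤ W := one_le_pow₀ (by norm_num)
  have hG1 : 1 ≤ G := one_le_pow₀ (by norm_num)
  have hN1 : 1 ≤ N := one_le_pow₀ (by norm_num)
  have hδ0 : 0 < δ := by positivity
  have hmain : L ^ 3 * W ^ 2 * G * N * δ * 128 ≤ 1 := by
    have e1 : L ^ 3 * W ^ 2 * G * N * δ * 128 = 2 ^ (3 * Λ + 2 * w + g + ν + c + 7) / 2 ^ s := by
      rw [hL, hW, hG, hN, hδ]
      rw [show (128 : ℝ) = 2 ^ 7 by norm_num]
      ring
    rw [e1]
    exact div_le_one_of_le₀ (pow_le_pow_right₀ (by norm_num) hs) (by positivity)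
  have he : K₁ * (n₁ * (ε * W + ρ)) ≤ 2 * (L * N * W * δ) := by
    have a1 : ε * W + ρ ≤ 2 * (W * δ) := by nlinarith
    have a2 : n₁ * (ε * W + ρ) ≤ N * (2 * (W * δ)) :=
      mul_le_mul hn₁ a1 (by positivity) (by positivity)
    calc _ ≤ L * (N * (2 * (W * δ))) := mul_le_mul hK₁ a2 (by positivity) (by positivity)
      _ = _ := by ring
  have hsmall : 2 * (L * N * W * δ) ≤ 1 := by
    have b1 : L * N * W * δ ≤ L ^ 3 * W ^ 2 * G * N * δ := by
      have c1 : L ≤ L ^ 3 := le_self_pow₀ hL1 (by norm_num)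
      have c2 : W ≤ W ^ 2 := le_self_pow₀ hW1 (by norm_num)
      calc L * N * W * δ ≤ L ^ 3 * N * W ^ 2 * δ := by gcongr
        _ ≤ L ^ 3 * N * W ^ 2 * δ * G := le_mul_of_one_le_right (by positivity) hG1
        _ = _ := by ring
    have b2 : 0 ≤ L ^ 3 * W ^ 2 * G * N * δ := by positivity
    nlinarith
  refine ⟨min (2 * (L * N * W * δ)) (K₁ * W), le_min he (by nlinarith), min_le_right _ _, ?_⟩
  have hmin : min (2 * (L * N * W * δ)) (K₁ * W) ≤ 2 * (L * N * W * δ) := min_le_left _ _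
  have hmin0 : 0 ≤ min (2 * (L * N * W * δ)) (K₁ * W) :=
    le_min (by positivity) (by positivity)
  have d1 : P * min (2 * (L * N * W * δ)) (K₁ * W) * (3 * (K₁ * W)) ≤
      G * (2 * (L * N * W * δ)) * (3 * (L * W)) := by
    have : K₁ * W ≤ L * W := mul_le_mul_of_nonneg_right hK₁ (by positivity)
    exact mul_le_mul (mul_le_mul hP hmin hmin0 (by positivity)) (by linarith) (by positivity)
      (by positivity)
  have d2 : ε * (P * (K₁ * W) ^ 2) ≤ δ * (G * (L * W) ^ 2) := by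
    have : K₁ * W ≤ L * W := mul_le_mul_of_nonneg_right hK₁ (by positivity)
    have h2 : (K₁ * W) ^ 2 ≤ (L * W) ^ 2 := by gcongr
    exact mul_le_mul hε' (mul_le_mul hP h2 (by positivity) (by positivity)) (by positivity)
      (by positivity)
  have d3 : n₂ * (ε * (P * (K₁ * W) ^ 2) + ρ) ≤
      N * (δ * (G * (L * W) ^ 2) + δ) :=
    mul_le_mul hn₂ (by linarith) (by positivity) (by positivity)
  have d4 : K₂ * ((P * min (2 * (L * N * W * δ)) (K₁ * W) * (3 * (K₁ * W)) + ρ) +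
      n₂ * (ε * (P * (K₁ * W) ^ 2) + ρ)) ≤
      L * ((G * (2 * (L * N * W * δ)) * (3 * (L * W)) + δ) +
        N * (δ * (G * (L * W) ^ 2) + δ)) :=
    mul_le_mul hK₂ (by linarith) (by positivity) (by positivity)
  refine d4.trans ?_
  set M : ℝ := L ^ 3 * W ^ 2 * G * N * δ with hM
  have m1 : L * (G * (2 * (L * N * W * δ)) * (3 * (L * W))) = 6 * M := by rw [hM]; ring
  have m2 : L * (N * (δ * (G * (L * W) ^ 2))) = M := by rw [hM]; ring
  have m3 : L * (N * δ) ≤ M := by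
    rw [hM]
    have c1 : L ≤ L ^ 3 := le_self_pow₀ hL1 (by norm_num)
    have c2 : 1 ≤ W ^ 2 := one_le_pow₀ hW1
    calc L * (N * δ) ≤ L ^ 3 * (N * δ) := by gcongr
      _ ≤ L ^ 3 * (N * δ) * (W ^ 2 * G) :=
          le_mul_of_one_le_right (by positivity) (one_le_mul_of_one_le_of_one_le c2 hG1)
      _ = _ := by ring
  have m4 : L * δ ≤ M := by
    refine le_trans ?_ m3
    have : δ ≤ N * δ := le_mul_of_one_le_left hδ0.le hN1
    exact mul_le_mul_of_nonneg_left this (by positivity)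
  have e1 : L * ((G * (2 * (L * N * W * δ)) * (3 * (L * W)) + δ) +
      N * (δ * (G * (L * W) ^ 2) + δ)) = L * (G * (2 * (L * N * W * δ)) * (3 * (L * W))) +
      L * (N * (δ * (G * (L * W) ^ 2))) + L * (N * δ) + L * δ := by ring
  rw [e1, m1, m2]
  linarith

end Abstract

/-! ### The local product -/

section Local

variable {κ : Type} [Fintype κ] {m : ℕ}

/-- The local product of the operands. -/
def locMul (κ : Type) (m : ℕ) {R : Type} [CommSemiring R] (x : (κ × Bool) × Fin m → R) :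
    (κ × Bool) × Fin m → R := fun j =>
  if j.1.2 then 0 else
    cellMul m (fun a => x ((j.1.1, false), a)) (fun a => x ((j.1.1, true), a)) j.2

/-- The integer map is within `c` of the exact local product divided by `2 ^ s`. -/
def locMulK (κ : Type) (m s : ℕ) (c : ℝ)
    (f : ((κ × Bool) × Fin m → GaussianInt) → (κ × Bool) × Fin m → GaussianInt) : Prop :=
  ∀ X j, ‖toComplex (f X j) - toComplex (locMul κ m X j) / 2 ^ s‖ ≤ c

theorem cellMul_sub_left {R : Type} [CommRing R] (x x' y : Fin m → R) (k : Fin m) :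
    cellMul m (fun a => x a - x' a) y k = cellMul m x y k - cellMul m x' y k := by
  simp only [cellMul]
  rw [← Finset.sum_sub_distrib]
  refine Finset.sum_congr rfl fun a _ => ?_
  rw [← Finset.sum_sub_distrib]
  refine Finset.sum_congr rfl fun b _ => ?_
  split_ifs
  · ring
  · ring

theorem cellMul_sub_right {R : Type} [CommRing R] (x y y' : Fin m → R) (k : Fin m) :
    cellMul m x (fun a => y a - y' a) k = cellMul m x y k - cellMul m x y' k := by
  simp only [cellMul]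
  rw [← Finset.sum_sub_distrib]
  refine Finset.sum_congr rfl fun a _ => ?_
  rw [← Finset.sum_sub_distrib]
  refine Finset.sum_congr rfl fun b _ => ?_
  split_ifs
  · ring
  · ring

theorem qOk_loc (κ : Type) [Fintype κ] (m s : ℕ) {c : ℝ} (hc : 0 ≤ c)
    {f : ((κ × Bool) × Fin m → GaussianInt) → (κ × Bool) × Fin m → GaussianInt}
    (hf : locMulK κ m s c f) : QOk (reA s) (locMul κ m) f (m : ℝ) (c / 2 ^ s) := by
  refine ⟨by positivity, ?_, ?_, ?_⟩
  · intro x
    rw [pi_norm_le_iff_of_nonneg (by positivity)]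
    intro j
    unfold locMul
    split_ifs
    · rw [norm_zero]
      positivity
    · refine (norm_cellMul_le _ _ (fun k => norm_le_pi_norm x _)
        (fun k => norm_le_pi_norm x _) (norm_nonneg _) (norm_nonneg _) _).trans_eq ?_
      ring
  · intro x y
    rw [pi_norm_le_iff_of_nonneg (by positivity)]
    intro j
    rw [Pi.sub_apply]
    unfold locMul
    split_ifs
    · rw [sub_self, norm_zero]
      positivity
    · have e : cellMul m (fun a => x ((j.1.1, false), a)) (fun a => x ((j.1.1, true), a)) j.2 -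
          cellMul m (fun a => y ((j.1.1, false), a)) (fun a => y ((j.1.1, true), a)) j.2 =
          cellMul m (fun a => x ((j.1.1, false), a))
            (fun a => x ((j.1.1, true), a) - y ((j.1.1, true), a)) j.2 +
          cellMul m (fun a => x ((j.1.1, false), a) - y ((j.1.1, false), a))
            (fun a => y ((j.1.1, true), a)) j.2 := by
        rw [cellMul_sub_right, cellMul_sub_left]
        ring
      rw [e]
      have h1 := norm_cellMul_le (fun a => x ((j.1.1, false), a))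
        (fun a => x ((j.1.1, true), a) - y ((j.1.1, true), a)) (a := ‖x‖) (b := ‖x - y‖)
        (fun k => norm_le_pi_norm x _) (fun k => norm_le_pi_norm (x - y) _) (norm_nonneg _)
        (norm_nonneg _) j.2
      have h2 := norm_cellMul_le (fun a => x ((j.1.1, false), a) - y ((j.1.1, false), a))
        (fun a => y ((j.1.1, true), a)) (a := ‖x - y‖) (b := ‖y‖)
        (fun k => norm_le_pi_norm (x - y) _) (fun k => norm_le_pi_norm y _) (norm_nonneg _)
        (norm_nonneg _) j.2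
      refine (norm_add_le _ _).trans ((add_le_add h1 h2).trans_eq ?_)
      ring
  · intro X
    rw [pi_norm_le_iff_of_nonneg (by positivity)]
    intro j
    have e : locMul κ m (reA s X) j = toComplex (locMul κ m X j) / 2 ^ s / 2 ^ s := by
      unfold locMul
      split_ifs
      · simp
      · simp only [cellMul, reA, reC, map_sum, Finset.sum_div]
        refine Finset.sum_congr rfl fun a _ => Finset.sum_congr rfl fun b _ => ?_
        split_ifs
        · rw [map_mul]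
          ring
        · simp
    have e2 : reA s (f X) j - toComplex (locMul κ m X j) / 2 ^ s / 2 ^ s =
        (toComplex (f X j) - toComplex (locMul κ m X j) / 2 ^ s) / 2 ^ s := by
      simp only [reA, reC]
      ring
    rw [Pi.sub_apply, e, e2, norm_div]
    have h : ‖(2 : ℂ) ^ s‖ = 2 ^ s := by simp
    rw [h]
    exact div_le_div_of_nonneg_right (hf X j) (by positivity)

/-- **FIX, final form for one array.** `l₁` = forward steps, then the local product, then the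
inverse steps `l₂`; `mt`, `mq` = the machine's maps modulo `2 ^ b`. If the exact complex run gives
an array of integers `k`, then rounding the result of the machine gives `k`. -/
theorem whole_exact_loc {s b c ν Λ w g : ℕ} {ε ρ κ' : ℝ} (hε : 0 ≤ ε) (hρ : 0 ≤ ρ)
    (hκ : 0 ≤ κ') (hε' : ε ≤ 2 ^ c / 2 ^ s) (hρ' : ρ ≤ 2 ^ c / 2 ^ s) (hκρ : κ' / 2 ^ s ≤ ρ)
    {l₁ l₂ : List (AStep ((κ × Bool) × Fin m))}
    (h₁ : ∀ st ∈ l₁, Step.Ok (reA s) ε ρ st) (h₂ : ∀ st ∈ l₂, Step.Ok (reA s) ε ρ st)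
    (hK₁ : prodK l₁ ≤ 2 ^ Λ) (hK₂ : prodK l₂ ≤ 2 ^ Λ) (hm : (m : ℝ) ≤ 2 ^ g)
    (hn₁ : (l₁.length : ℝ) ≤ 2 ^ ν) (hn₂ : (l₂.length : ℝ) ≤ 2 ^ ν)
    (hs : 3 * Λ + 2 * w + g + ν + c + 7 ≤ s) (hb : s + 3 * Λ + 2 * w + g + 10 ≤ b)
    {mt : AStep ((κ × Bool) × Fin m) →
      ((κ × Bool) × Fin m → GaussianInt) → (κ × Bool) × Fin m → GaussianInt}
    (hmt : ∀ st ∈ l₁ ++ l₂, ∀ X, Bd b X → mt st X = wrapA b (st.it X))
    {f mq : ((κ × Bool) × Fin m → GaussianInt) → (κ × Bool) × Fin m → GaussianInt}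
    (hf : locMulK κ m s κ' f) (hmq : ∀ X, Bd b X → mq X = wrapA b (f X))
    {X : (κ × Bool) × Fin m → GaussianInt} (hX : ‖reA s X‖ ≤ 2 ^ w)
    {k : (κ × Bool) × Fin m → ℤ}
    (hk : exRun l₂ (locMul κ m (exRun l₁ (reA s X))) = fun j => (k j : ℂ)) :
    (fun j => roundRe s (mtRun mt l₂ (mq (mtRun mt l₁ X)) j)) = k := by
  have hb1 : 1 ≤ b := by omega
  have hsν : ν + c ≤ s := by omega
  have hQ := qOk_loc κ m s hκ hf
  have q := run_bd hε hρ hε' hρ' h₁ hK₁ hn₁ hsν hX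
  have x1 : mtRun mt l₁ X = itRun l₁ X :=
    mtRun_eq hb1 (fun st hst => hmt st (List.mem_append_left _ hst))
      fun k _ => bd_of_norm (l := Λ + w + 2) (s := s) (by omega) (q k)
  have x2 : ‖reA s (itRun l₁ X)‖ ≤ 2 ^ (Λ + w + 2) := by
    have := q l₁.length
    rwa [List.take_length] at this
  set Z := f (itRun l₁ X) with hZ
  have hκ1 : κ' / 2 ^ s ≤ 1 := by
    refine (hκρ.trans hρ').trans ?_
    exact div_le_one_of_le₀ (pow_le_pow_right₀ (by norm_num) (by omega)) (by positivity)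
  have z1 : ‖reA s Z‖ ≤ 2 ^ (g + 2 * Λ + 2 * w + 5) := by
    have a1 := hQ.close (itRun l₁ X)
    have a2 := hQ.le (reA s (itRun l₁ X))
    have a3 : ‖reA s Z‖ ≤ ‖reA s Z - locMul κ m (reA s (itRun l₁ X))‖ +
        ‖locMul κ m (reA s (itRun l₁ X))‖ := by
      have := norm_add_le (reA s Z - locMul κ m (reA s (itRun l₁ X)))
        (locMul κ m (reA s (itRun l₁ X)))
      simpa using this
    have a4 : (m : ℝ) * ‖reA s (itRun l₁ X)‖ ^ 2 ≤ 2 ^ g * (2 ^ (Λ + w + 2)) ^ 2 :=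
      mul_le_mul hm (pow_le_pow_left₀ (norm_nonneg _) x2 2) (by positivity) (by positivity)
    have a5 : (2 : ℝ) ^ g * (2 ^ (Λ + w + 2)) ^ 2 = 2 ^ (g + 2 * Λ + 2 * w + 4) := by
      ring
    have a6 : (1 : ℝ) ≤ 2 ^ (g + 2 * Λ + 2 * w + 4) := one_le_pow₀ (by norm_num)
    have a7 : (2 : ℝ) ^ (g + 2 * Λ + 2 * w + 5) = 2 * 2 ^ (g + 2 * Λ + 2 * w + 4) := by ring
    rw [a7]
    linarith
  have z2 : mq (itRun l₁ X) = Z := by
    rw [hmq _ (bd_of_norm (l := Λ + w + 2) (s := s) (by omega) x2)]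
    exact wrapA_eq_self hb1 (bd_of_norm (l := g + 2 * Λ + 2 * w + 5) (s := s) (by omega) z1)
  have z3 : mtRun mt l₂ Z = itRun l₂ Z := by
    have q := run_bd hε hρ hε' hρ' h₂ hK₂ hn₂ hsν z1
    exact mtRun_eq hb1 (fun st hst => hmt st (List.mem_append_right _ hst))
      fun k _ => bd_of_norm (l := Λ + (g + 2 * Λ + 2 * w + 5) + 2) (s := s) (by omega) (q k)
  have hQ' : QOk (reA s) (locMul κ m) f (m : ℝ) ρ :=
    ⟨hQ.nonneg, hQ.le, hQ.lip, fun X => (hQ.close X).trans hκρ⟩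
  obtain ⟨e, e1, e2, e3⟩ := quarter_arith (w := w) (Λ := Λ) (ν := ν) (c := c) (g := g) (s := s)
    hε hρ hε' hρ' (one_le_prodK h₁) (one_le_prodK h₂) hK₁ hK₂ (Nat.cast_nonneg m) hm
    (Nat.cast_nonneg _) (Nat.cast_nonneg _) hn₁ hn₂ hs
  have hq := (qpipe_close hε hρ h₁ h₂ hQ' (X := X) rfl hX e1 e2).trans e3
  rw [hk] at hq
  funext j
  rw [x1, z2, z3]
  refine roundRe_eq ?_
  exact ((norm_le_pi_norm _ j).trans hq).trans (by norm_num)

end Local

end Vale.Agent.P338.R3.H334
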