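import Vale.Agent.P338.R3.H334.Glue
import Vale.Agent.P338.R3.H282.Step

/-!
P338-D, module GLUE-FIX: fixed point error analysis of the step codes of `H282.Step`.

The machine has arrays `F : ℕ → Bool → Bool → ℕ → ℤ` (position, operand, imaginary part, word).
`mzs` = what the machine does for a list of steps. `glue_fix`: if the exact complex run of the
schedule (on polynomials) gives polynomials with integer coefficients, then the words of the
machine are these integers times `2 ^ s`, up to an error `2 ^ (s - 3)`.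
-/

namespace Vale.Agent.P338.R3.H334

open GaussianInt (toComplex)
open Vale.Agent.P338.R3.H282 (Geo Ly DC St dnF upF exs)
open Vale.Agent.P338.R3.H352 (zt)
open Polynomial

/-- Four cells: operand bit, imaginary bit, word number. -/
abbrev Cq : Type := Bool → Bool → ℕ → ℤ

/-! ### The machine semantics of the steps -/

/-- Multiplication of a complex cell (for both operands) by a constant. -/
def cmZ (b s : ℕ) (c : ℤ × ℤ) (x : Cq) : Cq := fun o r j =>
  if r then mulWord b s c.2 (x o false j) + mulWord b s c.1 (x o true j)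
  else mulWord b s c.1 (x o false j) - mulWord b s c.2 (x o true j)

/-- The product of the two operands. -/
def prZ (b s : ℕ) (x : Cq) : Cq := fun o r j =>
  if o then 0 else
    if r then mulPoly b s (x false false) (x true true) j +
      mulPoly b s (x false true) (x true false) j
    else mulPoly b s (x false false) (x true false) j -
      mulPoly b s (x false true) (x true true) j

/-- What the machine does for a step; `C c u` = constant of the diagonal `c` at `u`. -/
def mzSt {δ : Type} (b s : ℕ) (C : DC δ → ℕ → ℤ × ℤ) : St δ → (ℕ → Cq) → ℕ → Cq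
  | .dn J, F => J.foldr dnF F
  | .up J, F => J.foldr upF F
  | .dg c, F => fun u => cmZ b s (C c u) (F u)

/-- What the machine does for a list of steps. -/
def mzs {δ : Type} (b s : ℕ) (C : DC δ → ℕ → ℤ × ℤ) (l : List (St δ)) (F : ℕ → Cq) : ℕ → Cq :=
  l.foldl (fun F st => mzSt b s C st F) F

/-! ### Steps on `Fin (2 ^ K)` -/

section Micro

variable {κ : Type} [Fintype κ] {n : ℕ}

/-- `x_u := x_u + x_{p u}`. -/
noncomputable def stAdd (n : ℕ) (p : κ → Option κ) : RStep κ n where
  ex x := fun j => x j + (p j.1.1).elim 0 fun v => x ((v, j.1.2), j.2)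
  it X := fun j => X j + (p j.1.1).elim 0 fun v => X ((v, j.1.2), j.2)
  K := 2
  mz x := fun u o r j => x u o r j + (p u).elim 0 fun v => x v o r j

theorem ok_stAdd {b s : ℕ} {ε ρ : ℝ} (hε : 0 ≤ ε) (hρ : 0 ≤ ρ) (p : κ → Option κ) :
    (stAdd n p).Ok b s ε ρ := by
  constructor
  · refine ok_of_linear hε hρ _ (by simp [stAdd]) ?_ ?_ ?_
    · intro x y
      funext j
      simp only [stAdd, Pi.sub_apply]
      cases p j.1.1
      · simp
      · simp only [Option.elim_some]
        ring
    · intro x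
      rw [pi_norm_le_iff_of_nonneg (mul_nonneg (by simp [stAdd]) (norm_nonneg _))]
      intro j
      simp only [stAdd]
      refine (norm_add_le _ _).trans ?_
      have h1 := norm_le_pi_norm x j
      have h2 : ‖(p j.1.1).elim 0 fun v => x ((v, j.1.2), j.2)‖ ≤ ‖x‖ := by
        cases p j.1.1
        · simp
        · exact norm_le_pi_norm x _
      linarith
    · intro X
      funext j
      simp only [stAdd, reA]
      rw [reC_add]
      congr 1
      cases p j.1.1
      · simp [reC_zero]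
      · rfl
  · intro x _
    funext j
    simp only [stAdd]
    cases h : p j.1.1
    · apply Zsqrtd.ext
      · simp [toG, h]
      · simp [toG, h]
    · apply Zsqrtd.ext
      · simp [toG, h]
      · simp [toG, h]

end Micro

section Bits

variable {K : ℕ}

theorem add_two_pow_lt {u b : ℕ} (hu : u < 2 ^ K) (hb : b < K) (h : u.testBit b = false) :
    u + 2 ^ b < 2 ^ K := by
  rw [Nat.testBit_eq_decide_div_mod_eq, decide_eq_false_iff_not] at h
  have h1 := Nat.div_add_mod u (2 ^ b)
  have h2 : u % 2 ^ b < 2 ^ b := Nat.mod_lt _ (by positivity)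
  obtain ⟨q, hq⟩ : ∃ q, u / 2 ^ b = 2 * q := ⟨u / 2 ^ b / 2, by omega⟩
  obtain ⟨c, rfl⟩ : ∃ c, K = b + 1 + c := ⟨K - b - 1, by omega⟩
  have h3 : 2 ^ (b + 1 + c) = 2 ^ b * (2 * 2 ^ c) := by ring
  rw [hq] at h1
  have h4 : q < 2 ^ c := by
    by_contra hcon
    have h5 : 2 ^ c ≤ q := by omega
    have h6 : 2 ^ b * (2 * 2 ^ c) ≤ 2 ^ b * (2 * q) := Nat.mul_le_mul_left _ (by omega)
    omega
  have h7 : 2 ^ b * (2 * q + 2) ≤ 2 ^ b * (2 * 2 ^ c) := Nat.mul_le_mul_left _ (by omega)
  have h8 : 2 ^ b * (2 * q + 2) = 2 ^ b * (2 * q) + 2 ^ b + 2 ^ b := by ring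
  omega

/-- The partner in the step `dn`. -/
def pdn (K b : ℕ) (u : Fin (2 ^ K)) : Option (Fin (2 ^ K)) :=
  if (u : ℕ).testBit b then none else
    if h : (u : ℕ) + 2 ^ b < 2 ^ K then some ⟨u + 2 ^ b, h⟩ else none

/-- The partner in the step `up`. -/
def pup (K b : ℕ) (u : Fin (2 ^ K)) : Option (Fin (2 ^ K)) :=
  if (u : ℕ).testBit b then some ⟨(u : ℕ) - 2 ^ b, lt_of_le_of_lt (Nat.sub_le _ _) u.2⟩ else none

/-- Restriction of an array. -/
def res (K : ℕ) (F : ℕ → Cq) : RArr (Fin (2 ^ K)) := fun u => F u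

/-- The coefficients of two arrays of polynomials. -/
noncomputable def cf (K n : ℕ) (Φ : Bool → ℕ → ℂ[X]) : (Fin (2 ^ K) × Bool) × Fin n → ℂ :=
  fun j => (Φ j.1.2 j.1.1).coeff j.2

/-- The micro steps of a step. -/
noncomputable def rsSt {δ : Type} (G : Geo) (lv : ℕ → δ → ℕ → ℂ) (K n b s : ℕ)
    (C : DC δ → ℕ → ℤ × ℤ) (lg : DC δ → ℕ) : St δ → List (RStep (Fin (2 ^ K)) n)
  | .dn J => J.reverse.map fun i => stAdd n (pdn K i)
  | .up J => J.reverse.map fun i => stAdd n (pup K i)
  | .dg c => [stDiag n b s (fun u _ => C c u) (fun u _ => G.val lv c u) (lg c + 1)]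

theorem mz_pdn {n i : ℕ} (hi : i < K) (F : ℕ → Cq) :
    (stAdd n (pdn K i)).mz (res K F) = res K (dnF i F) := by
  funext u o r j
  simp only [stAdd, res, dnF, pdn]
  by_cases h : (u : ℕ).testBit i
  · simp [h]
  · have h1 := add_two_pow_lt u.2 hi (by simpa using h)
    simp only [h, Bool.false_eq_true, if_false, dif_pos h1, Option.elim_some]
    rfl

theorem mz_pup {n i : ℕ} (F : ℕ → Cq) :
    (stAdd n (pup K i)).mz (res K F) = res K (upF i F) := by
  funext u o r j
  simp only [stAdd, res, upF, pup]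
  by_cases h : (u : ℕ).testBit i
  · simp only [h, if_true, Option.elim_some]
    rfl
  · simp [h]

theorem ex_pdn {n i : ℕ} (hi : i < K) (Φ : Bool → ℕ → ℂ[X]) :
    (stAdd n (pdn K i)).ex (cf K n Φ) = cf K n fun o => dnF i (Φ o) := by
  funext j
  simp only [stAdd, cf, dnF, pdn]
  by_cases h : (j.1.1 : ℕ).testBit i
  · simp [h]
  · have h1 := add_two_pow_lt j.1.1.2 hi (by simpa using h)
    simp only [h, Bool.false_eq_true, if_false, dif_pos h1, Option.elim_some, coeff_add]

theorem ex_pup {n i : ℕ} (Φ : Bool → ℕ → ℂ[X]) :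
    (stAdd n (pup K i)).ex (cf K n Φ) = cf K n fun o => upF i (Φ o) := by
  funext j
  simp only [stAdd, cf, upF, pup]
  by_cases h : (j.1.1 : ℕ).testBit i
  · simp only [h, if_true, Option.elim_some, coeff_add]
  · simp [h]

end Bits

section Run

variable {κ : Type} [Fintype κ] {n : ℕ}

theorem mzRun_append (l l' : List (RStep κ n)) (x : RArr κ) :
    mzRun (l ++ l') x = mzRun l' (mzRun l x) := by simp [mzRun]

theorem steps_append (l l' : List (RStep κ n)) : steps (l ++ l') = steps l ++ steps l' := by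
  simp [steps]

theorem exRun_append {Z E : Type} (l l' : List (Step Z E)) (x : E) :
    exRun (l ++ l') x = exRun l' (exRun l x) := by simp [exRun]

theorem prodK_append {Z E : Type} (l l' : List (Step Z E)) :
    prodK (l ++ l') = prodK l * prodK l' := by simp [prodK]

end Run

section Lists

variable {δ : Type} (G : Geo) (lv : ℕ → δ → ℕ → ℂ) {K n b s : ℕ} (C : DC δ → ℕ → ℤ × ℤ)
  (lg : DC δ → ℕ)

/-- The bits used by a step are below `K`. -/
def StBits (K : ℕ) : St δ → Prop
  | .dn J => ∀ i ∈ J, i < K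
  | .up J => ∀ i ∈ J, i < K
  | .dg _ => True

theorem mz_rsSt {st : St δ} (h : StBits K st) (F : ℕ → Cq) :
    mzRun (rsSt G lv K n b s C lg st) (res K F) = res K (mzSt b s C st F) := by
  match st, h with
  | .dn J, h =>
    induction J with
    | nil => rfl
    | cons i J ih =>
      have ih' := ih (fun k hk => h k (by simp [hk]))
      have e : rsSt G lv K n b s C lg (.dn (i :: J)) =
          rsSt G lv K n b s C lg (.dn J) ++ [stAdd n (pdn K i)] := by simp [rsSt]
      rw [e, mzRun_append, ih']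
      exact mz_pdn (h i (by simp)) _
  | .up J, h =>
    induction J with
    | nil => rfl
    | cons i J ih =>
      have ih' := ih (fun k hk => h k (by simp [hk]))
      have e : rsSt G lv K n b s C lg (.up (i :: J)) =
          rsSt G lv K n b s C lg (.up J) ++ [stAdd n (pup K i)] := by simp [rsSt]
      rw [e, mzRun_append, ih']
      exact mz_pup _
  | .dg c, _ => rfl

theorem ex_rsSt {st : St δ} (h : StBits K st) (Φ : Bool → ℕ → ℂ[X]) :
    exRun (steps (rsSt G lv K n b s C lg st)) (cf K n Φ) =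
      cf K n fun o => st.ex G lv (Φ o) := by
  match st, h with
  | .dn J, h =>
    induction J with
    | nil => rfl
    | cons i J ih =>
      have ih' := ih (fun k hk => h k (by simp [hk]))
      have e : rsSt G lv K n b s C lg (.dn (i :: J)) =
          rsSt G lv K n b s C lg (.dn J) ++ [stAdd n (pdn K i)] := by simp [rsSt]
      rw [e, steps_append, exRun_append, ih']
      exact ex_pdn (h i (by simp)) _
  | .up J, h =>
    induction J with
    | nil => rfl
    | cons i J ih =>
      have ih' := ih (fun k hk => h k (by simp [hk]))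
      have e : rsSt G lv K n b s C lg (.up (i :: J)) =
          rsSt G lv K n b s C lg (.up J) ++ [stAdd n (pup K i)] := by simp [rsSt]
      rw [e, steps_append, exRun_append, ih']
      exact ex_pup _
  | .dg c, _ =>
    funext j
    simp only [rsSt, steps, List.map_cons, List.map_nil, exRun, List.foldl_cons, List.foldl_nil,
      stDiag, cf, St.ex, coeff_smul, smul_eq_mul]

/-- The micro steps of a list of steps. -/
noncomputable def rsL (K n b s : ℕ) (l : List (St δ)) : List (RStep (Fin (2 ^ K)) n) :=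
  l.flatMap (rsSt G lv K n b s C lg)

theorem mz_rsL {l : List (St δ)} (h : ∀ st ∈ l, StBits K st) (F : ℕ → Cq) :
    mzRun (rsL G lv C lg K n b s l) (res K F) = res K (mzs b s C l F) := by
  induction l generalizing F with
  | nil => rfl
  | cons st l ih =>
    have e : rsL G lv C lg K n b s (st :: l) =
        rsSt G lv K n b s C lg st ++ rsL G lv C lg K n b s l := by simp [rsL]
    rw [e, mzRun_append, mz_rsSt G lv C lg (h st (by simp)),
      ih fun x hx => h x (by simp [hx])]
    rfl

theorem ex_rsL {l : List (St δ)} (h : ∀ st ∈ l, StBits K st) (Φ : Bool → ℕ → ℂ[X]) :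
    exRun (steps (rsL G lv C lg K n b s l)) (cf K n Φ) = cf K n fun o => exs G lv l (Φ o) := by
  induction l generalizing Φ with
  | nil => rfl
  | cons st l ih =>
    have e : rsL G lv C lg K n b s (st :: l) =
        rsSt G lv K n b s C lg st ++ rsL G lv C lg K n b s l := by simp [rsL]
    rw [e, steps_append, exRun_append, ex_rsSt G lv C lg (h st (by simp)),
      ih fun x hx => h x (by simp [hx])]
    rfl

/-- Growth of a step. -/
def lgSt : St δ → ℕ
  | .dn J => J.length
  | .up J => J.length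
  | .dg c => lg c + 1

/-- Number of micro steps of a step. -/
def nSt : St δ → ℕ
  | .dn J => J.length
  | .up J => J.length
  | .dg _ => 1

theorem prodK_replicate {κ : Type} [Fintype κ] (l : List (RStep κ n))
    (h : ∀ st ∈ l, st.K = 2) : prodK (steps l) = 2 ^ l.length := by
  induction l with
  | nil => simp [prodK, steps]
  | cons a l ih =>
    have h1 := ih fun st hst => h st (by simp [hst])
    have h2 := h a (by simp)
    simp only [prodK, steps, List.map_cons, List.prod_cons, List.length_cons] at h1 ⊢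
    rw [h1, h2]
    ring

theorem prodK_rsSt (st : St δ) :
    prodK (steps (rsSt G lv K n b s C lg st)) = 2 ^ lgSt lg st := by
  match st with
  | .dn J =>
    rw [prodK_replicate]
    · simp [rsSt, lgSt]
    · intro st hst
      simp only [rsSt, List.mem_map] at hst
      obtain ⟨i, _, rfl⟩ := hst
      rfl
  | .up J =>
    rw [prodK_replicate]
    · simp [rsSt, lgSt]
    · intro st hst
      simp only [rsSt, List.mem_map] at hst
      obtain ⟨i, _, rfl⟩ := hst
      rfl
  | .dg c => simp [rsSt, prodK, steps, stDiag, lgSt]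

theorem prodK_rsL (l : List (St δ)) :
    prodK (steps (rsL G lv C lg K n b s l)) = 2 ^ (l.map (lgSt lg)).sum := by
  induction l with
  | nil => simp [rsL, prodK, steps]
  | cons st l ih =>
    have e : rsL G lv C lg K n b s (st :: l) =
        rsSt G lv K n b s C lg st ++ rsL G lv C lg K n b s l := by simp [rsL]
    rw [e, steps_append, prodK_append, ih, prodK_rsSt, List.map_cons, List.sum_cons, pow_add]

theorem length_rsL (l : List (St δ)) :
    (rsL G lv C lg K n b s l).length = (l.map nSt).sum := by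
  induction l with
  | nil => simp [rsL]
  | cons st l ih =>
    have e : rsL G lv C lg K n b s (st :: l) =
        rsSt G lv K n b s C lg st ++ rsL G lv C lg K n b s l := by simp [rsL]
    rw [e, List.length_append, ih, List.map_cons, List.sum_cons]
    congr 1
    match st with
    | .dn J => simp [rsSt, nSt]
    | .up J => simp [rsSt, nSt]
    | .dg c => simp [rsSt, nSt]

/-- The constants are good approximations. -/
structure CApp (K b s : ℕ) (c : DC δ) : Prop where
  norm : ∀ u < 2 ^ K, ‖G.val lv c u‖ ≤ 2 ^ lg c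
  re : ∀ u < 2 ^ K, |((C c u).1 : ℝ) - 2 ^ s * (G.val lv c u).re| ≤ 1
  im : ∀ u < 2 ^ K, |((C c u).2 : ℝ) - 2 ^ s * (G.val lv c u).im| ≤ 1
  fits : lg c + s + 3 ≤ b

variable {C lg}

theorem capp_close {c : DC δ} (h : CApp G lv C lg K b s c) {u : ℕ} (hu : u < 2 ^ K) :
    ‖reC s (⟨(C c u).1, (C c u).2⟩ : GaussianInt) - G.val lv c u‖ ≤ 4 / 2 ^ s := by
  have h1 := h.re u hu
  have h2 := h.im u hu
  set v := G.val lv c u with hv
  have h3 := Complex.norm_le_abs_re_add_abs_im
    (reC s (⟨(C c u).1, (C c u).2⟩ : GaussianInt) - v)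
  have hp : (0 : ℝ) < 2 ^ s := by positivity
  have e : reC s (⟨(C c u).1, (C c u).2⟩ : GaussianInt) =
      (((((C c u).1 : ℝ) / 2 ^ s : ℝ)) : ℂ) + (((((C c u).2 : ℝ) / 2 ^ s : ℝ)) : ℂ) *
        Complex.I := by
    rw [reC, GaussianInt.toComplex_def]
    push_cast
    ring
  have e1 : (reC s (⟨(C c u).1, (C c u).2⟩ : GaussianInt) - v).re =
      ((C c u).1 : ℝ) / 2 ^ s - v.re := by
    rw [e, Complex.sub_re]
    simp only [Complex.add_re, Complex.ofReal_re, Complex.re_ofReal_mul, Complex.I_re, mul_zero,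
      add_zero]
  have e2 : (reC s (⟨(C c u).1, (C c u).2⟩ : GaussianInt) - v).im =
      ((C c u).2 : ℝ) / 2 ^ s - v.im := by
    rw [e, Complex.sub_im]
    simp only [Complex.add_im, Complex.ofReal_im, Complex.im_ofReal_mul, Complex.I_im, mul_one,
      zero_add]
  have k1 : |((C c u).1 : ℝ) / 2 ^ s - v.re| ≤ 1 / 2 ^ s := by
    have : ((C c u).1 : ℝ) / 2 ^ s - v.re = (((C c u).1 : ℝ) - 2 ^ s * v.re) / 2 ^ s := by
      field_simp
    rw [this, abs_div, abs_of_pos hp]
    exact div_le_div_of_nonneg_right h1 hp.le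
  have k2 : |((C c u).2 : ℝ) / 2 ^ s - v.im| ≤ 1 / 2 ^ s := by
    have : ((C c u).2 : ℝ) / 2 ^ s - v.im = (((C c u).2 : ℝ) - 2 ^ s * v.im) / 2 ^ s := by
      field_simp
    rw [this, abs_div, abs_of_pos hp]
    exact div_le_div_of_nonneg_right h2 hp.le
  rw [e1, e2] at h3
  have k3 : (1 : ℝ) / 2 ^ s + 1 / 2 ^ s ≤ 4 / 2 ^ s := by
    rw [← add_div]
    exact div_le_div_of_nonneg_right (by norm_num) hp.le
  linarith

theorem ok_rsSt (hb : 1 ≤ b) {ρ : ℝ} (hρ : 4 / 2 ^ s ≤ ρ) (hs : 2 ≤ s) {st : St δ}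
    (h : ∀ c, st = .dg c → CApp G lv C lg K b s c) :
    ∀ r ∈ rsSt G lv K n b s C lg st, r.Ok b s (4 / 2 ^ s) ρ := by
  have hε : (0 : ℝ) ≤ 4 / 2 ^ s := by positivity
  have hρ0 : 0 ≤ ρ := hε.trans hρ
  match st with
  | .dn J =>
    intro r hr
    simp only [rsSt, List.mem_map] at hr
    obtain ⟨i, _, rfl⟩ := hr
    exact ok_stAdd hε hρ0 _
  | .up J =>
    intro r hr
    simp only [rsSt, List.mem_map] at hr
    obtain ⟨i, _, rfl⟩ := hr
    exact ok_stAdd hε hρ0 _
  | .dg c =>
    intro r hr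
    simp only [rsSt, List.mem_singleton] at hr
    subst hr
    have hc := h c rfl
    have hp : (0 : ℝ) < 2 ^ s := by positivity
    have h4 : (4 : ℝ) / 2 ^ s ≤ 1 := by
      rw [div_le_one hp]
      calc (4 : ℝ) = 2 ^ 2 := by norm_num
        _ ≤ 2 ^ s := pow_le_pow_right₀ (by norm_num) hs
    have h2l : (1 : ℝ) ≤ 2 ^ lg c := one_le_pow₀ (by norm_num)
    have hn : ∀ u : Fin (2 ^ K), ‖reC s (⟨(C c u).1, (C c u).2⟩ : GaussianInt)‖ ≤
        2 ^ (lg c + 1) := by
      intro u
      have h1 := capp_close G lv hc u.2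
      have h2 := hc.norm u u.2
      have h3 : ‖reC s (⟨(C c u).1, (C c u).2⟩ : GaussianInt)‖ ≤
          ‖reC s (⟨(C c u).1, (C c u).2⟩ : GaussianInt) - G.val lv c u‖ +
          ‖G.val lv c u‖ := by
        have := norm_add_le (reC s (⟨(C c u).1, (C c u).2⟩ : GaussianInt) - G.val lv c u)
          (G.val lv c u)
        simpa using this
      rw [pow_succ]
      linarith
    refine ok_stDiag hb hε hρ ?_ ?_ (fun u _ => hn u) (fun u _ => capp_close G lv hc u.2)
    · intro u o
      have h1 : ‖toComplex (⟨(C c u).1, (C c u).2⟩ : GaussianInt)‖ ≤ 2 ^ (lg c + 1 + s) := by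
        have h2 := hn u
        simp only [reC, norm_div] at h2
        have h3 : ‖(2 : ℂ) ^ s‖ = 2 ^ s := by simp
        rw [h3, div_le_iff₀ hp] at h2
        rw [pow_add]
        exact h2
      have h5 : (2 : ℝ) ^ (lg c + 1 + s) < 2 ^ (b - 1) :=
        pow_lt_pow_right₀ (by norm_num) (by have := hc.fits; omega)
      have h6 := (abs_re_le _).trans h1
      have h7 := (abs_im_le _).trans h1
      have h8 := abs_lt.1 (lt_of_le_of_lt h6 h5)
      have h9 := abs_lt.1 (lt_of_le_of_lt h7 h5)
      refine ⟨⟨?_, ?_⟩, ?_, ?_⟩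
      · have := h8.1.le
        exact_mod_cast this
      · have := h8.2
        exact_mod_cast this
      · have := h9.1.le
        exact_mod_cast this
      · have := h9.2
        exact_mod_cast this
    · intro u _
      refine (hc.norm u u.2).trans ?_
      exact pow_le_pow_right₀ (by norm_num) (by omega)

/-- The local product of arrays of coefficients. -/
theorem locMul_cf (Φ : Bool → ℕ → ℂ[X]) :
    locMul (Fin (2 ^ K)) n (cf K n Φ) =
      cf K n fun o u => if o then 0 else Φ false u * Φ true u := by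
  funext j
  obtain ⟨⟨u, o⟩, k⟩ := j
  unfold locMul cf
  cases o
  · simp only [Bool.false_eq_true, if_false]
    have h := cellMul_range (n := n) (fun i => (Φ false u).coeff i)
      (fun i => (Φ true u).coeff i) k
    rw [h, Polynomial.coeff_mul, Finset.Nat.sum_antidiagonal_eq_sum_range_succ_mk]
  · simp

variable (C lg) in
/-- **GLUE-FIX.** -/
theorem glue_fix {l₁ l₂ : List (St δ)} {Λ w g ν : ℕ}
    (hbits : ∀ st ∈ l₁ ++ l₂, StBits K st)
    (hC : ∀ c, St.dg c ∈ l₁ ++ l₂ → CApp G lv C lg K b s c)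
    (hΛ₁ : (l₁.map (lgSt lg)).sum ≤ Λ) (hΛ₂ : (l₂.map (lgSt lg)).sum ≤ Λ)
    (hn₁ : (l₁.map nSt).sum ≤ 2 ^ ν) (hn₂ : (l₂.map nSt).sum ≤ 2 ^ ν) (hg : n ≤ 2 ^ g)
    (hs : 3 * Λ + 2 * w + g + ν + 9 ≤ s) (hb : s + 3 * Λ + 2 * w + g + 10 ≤ b)
    {f h : ℕ → ℂ[X]} {D : ℕ → Bool → ℕ → ℤ} {F : ℕ → Cq}
    (hF : ∀ u < 2 ^ K, ∀ o, ∀ j < n, F u o false j = D u o j * 2 ^ s ∧ F u o true j = 0)
    (hD : ∀ u < 2 ^ K, ∀ o, ∀ j < n, |D u o j| ≤ 2 ^ w)
    (hf : ∀ u < 2 ^ K, ∀ j < n, (f u).coeff j = D u false j)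
    (hh : ∀ u < 2 ^ K, ∀ j < n, (h u).coeff j = D u true j) {k : ℕ → ℕ → ℤ}
    (hk : ∀ u < 2 ^ K, ∀ j < n,
      (exs G lv l₂ (fun u => exs G lv l₁ f u * exs G lv l₁ h u) u).coeff j = k u j)
    {u : ℕ} (hu : u < 2 ^ K) {j : ℕ} (hj : j < n) :
    |wrap b (mzs b s C l₂ (fun u => prZ b s (mzs b s C l₁ F u)) u false false j) -
      2 ^ s * k u j| ≤ 2 ^ (s - 3) := by
  have hb1 : 1 ≤ b := by omega
  have hs3 : 3 ≤ s := by omega
  set Φ : Bool → ℕ → ℂ[X] := fun o => if o then h else f with hΦ
  -- the input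
  have hin : reA s (toG n (res K F)) = cf K n Φ := by
    funext j
    obtain ⟨⟨u, o⟩, j⟩ := j
    obtain ⟨e1, e2⟩ := hF u u.2 o j j.2
    have e3 : (Φ o u).coeff j = (D u o j : ℂ) := by
      cases o
      · exact hf u u.2 j j.2
      · exact hh u u.2 j j.2
    simp only [reA, reC, cf, e3]
    rw [GaussianInt.toComplex_def]
    simp only [toG_re, toG_im, res, e1, e2]
    push_cast
    have : (2 : ℂ) ^ s ≠ 0 := pow_ne_zero _ two_ne_zero
    field_simp
    ring
  have hX : ‖reA s (toG n (res K F))‖ ≤ 2 ^ w := by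
    rw [pi_norm_le_iff_of_nonneg (by positivity), hin]
    rintro ⟨⟨u, o⟩, j⟩
    have e3 : (Φ o u).coeff j = (D u o j : ℂ) := by
      cases o
      · exact hf u u.2 j j.2
      · exact hh u u.2 j j.2
    simp only [cf, e3]
    rw [Complex.norm_intCast]
    have := hD u u.2 o j j.2
    exact_mod_cast this
  set r₁ := rsL G lv C lg K n b s l₁ with hr₁
  set r₂ := rsL G lv C lg K n b s l₂ with hr₂
  have o₁ : ∀ st ∈ r₁, st.Ok b s (4 / 2 ^ s) (4 / 2 ^ s) := by
    intro r hr
    obtain ⟨st, hst, hr⟩ := List.mem_flatMap.1 hr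
    exact ok_rsSt G lv hb1 le_rfl (by omega) (fun c hc => hC c (by
      rw [← hc]
      exact List.mem_append_left _ hst)) r hr
  have o₂ : ∀ st ∈ r₂, st.Ok b s (4 / 2 ^ s) (4 / 2 ^ s) := by
    intro r hr
    obtain ⟨st, hst, hr⟩ := List.mem_flatMap.1 hr
    exact ok_rsSt G lv hb1 le_rfl (by omega) (fun c hc => hC c (by
      rw [← hc]
      exact List.mem_append_right _ hst)) r hr
  have hε' : (4 : ℝ) / 2 ^ s ≤ 2 ^ 2 / 2 ^ s := by norm_num
  have hK₁ : prodK (steps r₁) ≤ 2 ^ Λ := by
    rw [hr₁, prodK_rsL]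
    exact pow_le_pow_right₀ (by norm_num) hΛ₁
  have hK₂ : prodK (steps r₂) ≤ 2 ^ Λ := by
    rw [hr₂, prodK_rsL]
    exact pow_le_pow_right₀ (by norm_num) hΛ₂
  have hl₁ : (r₁.length : ℝ) ≤ 2 ^ ν := by
    rw [hr₁, length_rsL]
    exact_mod_cast hn₁
  have hl₂ : (r₂.length : ℝ) ≤ 2 ^ ν := by
    rw [hr₂, length_rsL]
    exact_mod_cast hn₂
  obtain ⟨z1, z2⟩ := whole_close (c := 2) (Λ := Λ) (w := w) (g := g) (ν := ν) (b := b) (s := s)
    (by positivity) le_rfl hε' hε' o₁ o₂ hK₁ hK₂ (by exact_mod_cast hg) hl₁ hl₂ (by omega)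
    (by omega) hX
  -- the exact run
  have m₁ : mzRun r₁ (res K F) = res K (mzs b s C l₁ F) :=
    mz_rsL G lv C lg (fun st hst => hbits st (List.mem_append_left _ hst)) F
  have m₂ : rProd b s (res K (mzs b s C l₁ F)) =
      res K (fun u => prZ b s (mzs b s C l₁ F u)) := rfl
  have m₃ : mzRun r₂ (rProd b s (mzRun r₁ (res K F))) =
      res K (mzs b s C l₂ fun u => prZ b s (mzs b s C l₁ F u)) := by
    rw [m₁, m₂]
    exact mz_rsL G lv C lg (fun st hst => hbits st (List.mem_append_right _ hst)) _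
  have x₁ : exRun (steps r₁) (reA s (toG n (res K F))) = cf K n fun o => exs G lv l₁ (Φ o) := by
    rw [hin]
    exact ex_rsL G lv C lg (fun st hst => hbits st (List.mem_append_left _ hst)) Φ
  have x₂ : exRun (steps r₂) (locMul (Fin (2 ^ K)) n
      (exRun (steps r₁) (reA s (toG n (res K F))))) =
      cf K n fun o => exs G lv l₂ (fun u => if o then 0 else
        exs G lv l₁ (Φ false) u * exs G lv l₁ (Φ true) u) := by
    rw [x₁, locMul_cf]
    exact ex_rsL G lv C lg (fun st hst => hbits st (List.mem_append_right _ hst)) _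
  rw [m₃] at z1 z2
  rw [x₂] at z2
  have hfin := word_close (u := ⟨u, hu⟩) (o := false) (j := ⟨j, hj⟩) (k := k u j) hb1 hs3 z1 z2
    (by
      simp only [cf, Bool.false_eq_true, if_false]
      exact hk u hu j hj)
  exact hfin.1

end Lists

end Vale.Agent.P338.R3.H334
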