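import Mathlib

/-!
P338-D, module FIX: fixed point arithmetic, abstract error analysis.

* A `Step` is a pair: an exact map `ex : E → E` on a normed space (arrays of complex numbers with
  the sup norm) and an integer map `it : Z → Z` (arrays of Gaussian integers); `re : Z → E` is the
  meaning of an integer array (entry divided by `2 ^ s`).
* `Step.Ok re ε ρ st`: the step has Lipschitz constant `st.K ≥ 1`, relative error `ε` and absolute
  error `ρ`.
* `run_close`: the error after a list of steps.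
* `pipe_close`: two forward transforms, one product, one inverse transform.
* `modRun_eq`: the run modulo `2 ^ b` agrees with the integer run as long as nothing overflows.
-/

namespace Vale.Agent.P338.R3.H334

/-! ### Abstract steps -/

/-- A step of a fixed point algorithm. -/
structure Step (Z E : Type) where
  /-- the exact map -/
  ex : E → E
  /-- the integer map -/
  it : Z → Z
  /-- the Lipschitz constant -/
  K : ℝ

section Abstract

variable {Z E : Type} [NormedAddCommGroup E]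

/-- The step is correct up to a relative error `ε` and an absolute error `ρ`. -/
structure Step.Ok (re : Z → E) (ε ρ : ℝ) (st : Step Z E) : Prop where
  one_le : 1 ≤ st.K
  ex_le : ∀ x, ‖st.ex x‖ ≤ st.K * ‖x‖
  close : ∀ X x, ‖re (st.it X) - st.ex x‖ ≤ st.K * ‖re X - x‖ + ε * ‖x‖ + ρ

/-- The exact run. -/
def exRun (l : List (Step Z E)) (x : E) : E := l.foldl (fun x st => st.ex x) x

/-- The integer run. -/
def itRun (l : List (Step Z E)) (X : Z) : Z := l.foldl (fun X st => st.it X) X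

/-- The product of the Lipschitz constants. -/
noncomputable def prodK (l : List (Step Z E)) : ℝ := (l.map Step.K).prod

variable {re : Z → E} {ε ρ : ℝ}

theorem one_le_prodK {l : List (Step Z E)} (hl : ∀ st ∈ l, Step.Ok re ε ρ st) : 1 ≤ prodK l := by
  induction l with
  | nil => simp [prodK]
  | cons a l ih =>
    have h1 := (hl a (by simp)).one_le
    have h2 := ih fun st hst => hl st (by simp [hst])
    unfold prodK at *
    simp only [List.map_cons, List.prod_cons]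
    nlinarith

/-- **The error after a list of steps.** -/
theorem run_close (hε : 0 ≤ ε) (hρ : 0 ≤ ρ) {l : List (Step Z E)}
    (hl : ∀ st ∈ l, Step.Ok re ε ρ st) (X : Z) (x : E) :
    ‖exRun l x‖ ≤ prodK l * ‖x‖ ∧
    ‖re (itRun l X) - exRun l x‖ ≤
      prodK l * (‖re X - x‖ + l.length * (ε * ‖x‖ + ρ)) := by
  induction l using List.reverseRecOn with
  | nil => simp [exRun, itRun, prodK]
  | append_singleton l a ih =>
    obtain ⟨ih1, ih2⟩ := ih fun st hst => hl st (by simp [hst])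
    have ha := hl a (by simp)
    have hK := one_le_prodK (re := re) (ε := ε) (ρ := ρ) (l := l)
      fun st hst => hl st (by simp [hst])
    have hp : prodK (l ++ [a]) = prodK l * a.K := by simp [prodK]
    have e1 : exRun (l ++ [a]) x = a.ex (exRun l x) := by simp [exRun]
    have e2 : itRun (l ++ [a]) X = a.it (itRun l X) := by simp [itRun]
    have hnx : 0 ≤ ‖x‖ := norm_nonneg _
    have haK := ha.one_le
    rw [hp, e1, e2]
    constructor
    · calc ‖a.ex (exRun l x)‖ ≤ a.K * ‖exRun l x‖ := ha.ex_le _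
        _ ≤ a.K * (prodK l * ‖x‖) := mul_le_mul_of_nonneg_left ih1 (by linarith)
        _ = prodK l * a.K * ‖x‖ := by ring
    · have h1 := ha.close (itRun l X) (exRun l x)
      have h2 : a.K * ‖re (itRun l X) - exRun l x‖ ≤
          a.K * (prodK l * (‖re X - x‖ + l.length * (ε * ‖x‖ + ρ))) :=
        mul_le_mul_of_nonneg_left ih2 (by linarith)
      have h3 : ε * ‖exRun l x‖ ≤ ε * (prodK l * ‖x‖) := mul_le_mul_of_nonneg_left ih1 hε
      have h4 : ρ ≤ prodK l * ρ := le_mul_of_one_le_left hρ hK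
      have h5 : ε * (prodK l * ‖x‖) + prodK l * ρ ≤ prodK l * a.K * (ε * ‖x‖ + ρ) := by
        have h6 : 0 ≤ prodK l * (ε * ‖x‖ + ρ) := by positivity
        nlinarith
      simp only [List.length_append, List.length_cons, List.length_nil, Nat.cast_add,
        Nat.cast_zero, Nat.cast_one, zero_add]
      nlinarith

/-- The integer run stays bounded. -/
theorem run_bound (hε : 0 ≤ ε) (hρ : 0 ≤ ρ) {l : List (Step Z E)}
    (hl : ∀ st ∈ l, Step.Ok re ε ρ st) (X : Z) :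
    ‖re (itRun l X)‖ ≤ prodK l * ((1 + l.length * ε) * ‖re X‖ + l.length * ρ) := by
  obtain ⟨h1, h2⟩ := run_close hε hρ hl X (re X)
  have h3 : ‖re (itRun l X)‖ ≤ ‖re (itRun l X) - exRun l (re X)‖ + ‖exRun l (re X)‖ := by
    have := norm_add_le (re (itRun l X) - exRun l (re X)) (exRun l (re X))
    simpa using this
  rw [sub_self, norm_zero, zero_add] at h2
  calc _ ≤ _ := h3
    _ ≤ prodK l * (l.length * (ε * ‖re X‖ + ρ)) + prodK l * ‖re X‖ := add_le_add h2 h1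
    _ = _ := by ring

/-- Prefixes of a good list are good, and have smaller Lipschitz constants. -/
theorem prodK_take_le {l : List (Step Z E)} (hl : ∀ st ∈ l, Step.Ok re ε ρ st) (k : ℕ) :
    prodK (l.take k) ≤ prodK l := by
  have h1 : prodK l = prodK (l.take k) * prodK (l.drop k) := by
    unfold prodK
    rw [← List.prod_append, ← List.map_append, List.take_append_drop]
  have h2 := one_le_prodK (re := re) (ε := ε) (ρ := ρ) (l := l.drop k)
    fun st hst => hl st (List.mem_of_mem_drop hst)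
  have h3 := one_le_prodK (re := re) (ε := ε) (ρ := ρ) (l := l.take k)
    fun st hst => hl st (List.mem_of_mem_take hst)
  rw [h1]
  exact le_mul_of_one_le_right (by linarith) h2

end Abstract

/-! ### Two transforms, a product, an inverse transform -/

section Pipe

variable {Z₁ E₁ Z₂ E₂ : Type} [NormedAddCommGroup E₁] [NormedAddCommGroup E₂]

/-- A product with rounding. -/
structure ProdOk (re₁ : Z₁ → E₁) (re₂ : Z₂ → E₂) (pe : E₁ → E₁ → E₂) (pi : Z₁ → Z₁ → Z₂)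
    (P ρ : ℝ) : Prop where
  nonneg : 0 ≤ P
  le : ∀ x y, ‖pe x y‖ ≤ P * ‖x‖ * ‖y‖
  sub_left : ∀ x x' y, pe (x - x') y = pe x y - pe x' y
  sub_right : ∀ x y y', pe x (y - y') = pe x y - pe x y'
  close : ∀ X Y, ‖re₂ (pi X Y) - pe (re₁ X) (re₁ Y)‖ ≤ ρ

variable {re₁ : Z₁ → E₁} {re₂ : Z₂ → E₂} {pe : E₁ → E₁ → E₂} {pi : Z₁ → Z₁ → Z₂} {P ρ ε : ℝ}

theorem ProdOk.close' (h : ProdOk re₁ re₂ pe pi P ρ) (X Y : Z₁) (x y : E₁) :
    ‖re₂ (pi X Y) - pe x y‖ ≤
      P * ‖re₁ X - x‖ * ‖re₁ Y‖ + P * ‖x‖ * ‖re₁ Y - y‖ + ρ := by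
  have e : re₂ (pi X Y) - pe x y = (re₂ (pi X Y) - pe (re₁ X) (re₁ Y)) +
      (pe (re₁ X - x) (re₁ Y) + pe x (re₁ Y - y)) := by
    rw [h.sub_left, h.sub_right]
    abel
  rw [e]
  calc _ ≤ ‖re₂ (pi X Y) - pe (re₁ X) (re₁ Y)‖ +
        (‖pe (re₁ X - x) (re₁ Y)‖ + ‖pe x (re₁ Y - y)‖) :=
        (norm_add_le _ _).trans (add_le_add le_rfl (norm_add_le _ _))
    _ ≤ ρ + (P * ‖re₁ X - x‖ * ‖re₁ Y‖ + P * ‖x‖ * ‖re₁ Y - y‖) :=
        add_le_add (h.close X Y) (add_le_add (h.le _ _) (h.le _ _))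
    _ = _ := by ring

/-- **Error of the whole pipeline.** -/
theorem pipe_close (hε : 0 ≤ ε) (hρ : 0 ≤ ρ) {l₁ : List (Step Z₁ E₁)} {l₂ : List (Step Z₂ E₂)}
    (h₁ : ∀ st ∈ l₁, Step.Ok re₁ ε ρ st) (h₂ : ∀ st ∈ l₂, Step.Ok re₂ ε ρ st)
    (hp : ProdOk re₁ re₂ pe pi P ρ) {X Y : Z₁} {x y : E₁} (hX : re₁ X = x) (hY : re₁ Y = y)
    {R e : ℝ} (hx : ‖x‖ ≤ R) (hy : ‖y‖ ≤ R)
    (he : prodK l₁ * (l₁.length * (ε * R + ρ)) ≤ e) (he1 : e ≤ prodK l₁ * R) :
    ‖re₂ (itRun l₂ (pi (itRun l₁ X) (itRun l₁ Y))) -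
      exRun l₂ (pe (exRun l₁ x) (exRun l₁ y))‖ ≤
      prodK l₂ * ((P * e * (3 * (prodK l₁ * R)) + ρ) +
        l₂.length * (ε * (P * (prodK l₁ * R) ^ 2) + ρ)) := by
  have hK := one_le_prodK h₁
  have hK2 := one_le_prodK h₂
  have hR : 0 ≤ R := (norm_nonneg _).trans hx
  have hP := hp.nonneg
  have hc : ∀ (X : Z₁) (x : E₁), re₁ X = x → ‖x‖ ≤ R →
      ‖exRun l₁ x‖ ≤ prodK l₁ * R ∧ ‖re₁ (itRun l₁ X) - exRun l₁ x‖ ≤ e ∧
      ‖re₁ (itRun l₁ X)‖ ≤ 2 * (prodK l₁ * R) := by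
    intro X x hX hx
    obtain ⟨a1, a2⟩ := run_close hε hρ h₁ X x
    have b1 : ‖exRun l₁ x‖ ≤ prodK l₁ * R :=
      a1.trans (mul_le_mul_of_nonneg_left hx (by linarith))
    have b2 : ‖re₁ (itRun l₁ X) - exRun l₁ x‖ ≤ e := by
      refine a2.trans (le_trans ?_ he)
      rw [hX, sub_self, norm_zero, zero_add]
      refine mul_le_mul_of_nonneg_left ?_ (by linarith)
      refine mul_le_mul_of_nonneg_left ?_ (by positivity)
      have := mul_le_mul_of_nonneg_left hx hε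
      linarith
    refine ⟨b1, b2, ?_⟩
    have h3 : ‖re₁ (itRun l₁ X)‖ ≤ ‖re₁ (itRun l₁ X) - exRun l₁ x‖ + ‖exRun l₁ x‖ := by
      have := norm_add_le (re₁ (itRun l₁ X) - exRun l₁ x) (exRun l₁ x)
      simpa using this
    linarith
  obtain ⟨x1, x2, x3⟩ := hc X x hX hx
  obtain ⟨y1, y2, y3⟩ := hc Y y hY hy
  have he0 : 0 ≤ e := (norm_nonneg _).trans x2
  obtain ⟨p1, p2⟩ := run_close hε hρ h₂ (pi (itRun l₁ X) (itRun l₁ Y))
    (pe (exRun l₁ x) (exRun l₁ y))
  refine p2.trans (mul_le_mul_of_nonneg_left ?_ (by linarith))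
  have q1 := hp.close' (itRun l₁ X) (itRun l₁ Y) (exRun l₁ x) (exRun l₁ y)
  have q2 : P * ‖re₁ (itRun l₁ X) - exRun l₁ x‖ * ‖re₁ (itRun l₁ Y)‖ ≤
      P * e * (2 * (prodK l₁ * R)) :=
    mul_le_mul (mul_le_mul_of_nonneg_left x2 hP) y3 (norm_nonneg _) (by positivity)
  have q3 : P * ‖exRun l₁ x‖ * ‖re₁ (itRun l₁ Y) - exRun l₁ y‖ ≤ P * (prodK l₁ * R) * e :=
    mul_le_mul (mul_le_mul_of_nonneg_left x1 hP) y2 (norm_nonneg _) (by positivity)
  have q4 : ‖pe (exRun l₁ x) (exRun l₁ y)‖ ≤ P * (prodK l₁ * R) ^ 2 := by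
    refine (hp.le _ _).trans ?_
    calc P * ‖exRun l₁ x‖ * ‖exRun l₁ y‖ ≤ P * (prodK l₁ * R) * (prodK l₁ * R) :=
          mul_le_mul (mul_le_mul_of_nonneg_left x1 hP) y1 (norm_nonneg _) (by positivity)
      _ = _ := by ring
  have q5 : ε * ‖pe (exRun l₁ x) (exRun l₁ y)‖ ≤ ε * (P * (prodK l₁ * R) ^ 2) :=
    mul_le_mul_of_nonneg_left q4 hε
  have q6 : (l₂.length : ℝ) * (ε * ‖pe (exRun l₁ x) (exRun l₁ y)‖ + ρ) ≤
      l₂.length * (ε * (P * (prodK l₁ * R) ^ 2) + ρ) :=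
    mul_le_mul_of_nonneg_left (by linarith) (by positivity)
  nlinarith

/-- **Error of the whole pipeline, dyadic form.** `K ≤ 2 ^ Λ`, inputs `≤ 2 ^ w`, product constant
`≤ 2 ^ g`, at most `2 ^ ν` steps, errors `≤ 2 ^ (c - s)`: the error of the result is at most `1/4`
if `s ≥ 3 Λ + 2 w + g + ν + c + 7`. -/
theorem pipe_quarter {l₁ : List (Step Z₁ E₁)} {l₂ : List (Step Z₂ E₂)} {Λ w g ν c s : ℕ}
    (hε : 0 ≤ ε) (hρ : 0 ≤ ρ) (hε' : ε ≤ 2 ^ c / 2 ^ s) (hρ' : ρ ≤ 2 ^ c / 2 ^ s)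
    (h₁ : ∀ st ∈ l₁, Step.Ok re₁ ε ρ st) (h₂ : ∀ st ∈ l₂, Step.Ok re₂ ε ρ st)
    (hp : ProdOk re₁ re₂ pe pi P ρ) {X Y : Z₁} {x y : E₁} (hX : re₁ X = x) (hY : re₁ Y = y)
    (hx : ‖x‖ ≤ 2 ^ w) (hy : ‖y‖ ≤ 2 ^ w) (hK₁ : prodK l₁ ≤ 2 ^ Λ) (hK₂ : prodK l₂ ≤ 2 ^ Λ)
    (hP : P ≤ 2 ^ g) (hn₁ : (l₁.length : ℝ) ≤ 2 ^ ν) (hn₂ : (l₂.length : ℝ) ≤ 2 ^ ν)
    (hs : 3 * Λ + 2 * w + g + ν + c + 7 ≤ s) :
    ‖re₂ (itRun l₂ (pi (itRun l₁ X) (itRun l₁ Y))) -
      exRun l₂ (pe (exRun l₁ x) (exRun l₁ y))‖ ≤ 1 / 4 := by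
  have hP0 := hp.nonneg
  have k1 := one_le_prodK h₁
  have k2 := one_le_prodK h₂
  set L : ℝ := 2 ^ Λ with hL
  set W : ℝ := 2 ^ w with hW
  set G : ℝ := 2 ^ g with hG
  set N : ℝ := 2 ^ ν with hN
  set δ : ℝ := 2 ^ c / 2 ^ s with hδ
  have hL1 : 1 ≤ L := one_le_pow₀ (by norm_num)
  have hW1 : 1 ≤ W := one_le_pow₀ (by norm_num)
  have hG1 : 1 ≤ G := one_le_pow₀ (by norm_num)
  have hN1 : 1 ≤ N := one_le_pow₀ (by norm_num)
  have hδ0 : 0 < δ := by positivity
  have hmain : L ^ 3 * W ^ 2 * G * N * δ * 128 ≤ 1 := by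
    have e1 : L ^ 3 * W ^ 2 * G * N * δ * 128 = 2 ^ (3 * Λ + 2 * w + g + ν + c + 7) / 2 ^ s := by
      rw [hL, hW, hG, hN, hδ]
      rw [show (128 : ℝ) = 2 ^ 7 by norm_num]
      ring
    rw [e1]
    exact div_le_one_of_le₀ (pow_le_pow_right₀ (by norm_num) hs) (by positivity)
  -- the error of the forward transforms
  have he : prodK l₁ * (l₁.length * (ε * W + ρ)) ≤ 2 * (L * N * W * δ) := by
    have a1 : ε * W + ρ ≤ 2 * (W * δ) := by nlinarith
    have a2 : (l₁.length : ℝ) * (ε * W + ρ) ≤ N * (2 * (W * δ)) :=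
      mul_le_mul hn₁ a1 (by positivity) (by positivity)
    calc _ ≤ L * (N * (2 * (W * δ))) := mul_le_mul hK₁ a2 (by positivity) (by positivity)
      _ = _ := by ring
  have hsmall : 2 * (L * N * W * δ) ≤ 1 := by
    have b1 : L * N * W * δ ≤ L ^ 3 * W ^ 2 * G * N * δ := by
      have c1 : L ≤ L ^ 3 := le_self_pow₀ hL1 (by norm_num)
      have c2 : W ≤ W ^ 2 := le_self_pow₀ hW1 (by norm_num)
      calc L * N * W * δ ≤ L ^ 3 * N * W ^ 2 * δ := by gcongr
        _ ≤ L ^ 3 * N * W ^ 2 * δ * G := le_mul_of_one_le_right (by positivity) hG1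
        _ = _ := by ring
    have b2 : 0 ≤ L ^ 3 * W ^ 2 * G * N * δ := by positivity
    nlinarith
  -- monotonicity: replace the first list's constant
  have hfin := pipe_close (R := W) (e := min (2 * (L * N * W * δ)) (prodK l₁ * W)) hε hρ h₁ h₂ hp
    hX hY hx hy (le_min he (by
      have : prodK l₁ * (l₁.length * (ε * W + ρ)) ≤ 1 := he.trans hsmall
      nlinarith)) (min_le_right _ _)
  refine hfin.trans ?_
  have hmin : min (2 * (L * N * W * δ)) (prodK l₁ * W) ≤ 2 * (L * N * W * δ) := min_le_left _ _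
  have hmin0 : 0 ≤ min (2 * (L * N * W * δ)) (prodK l₁ * W) :=
    le_min (by positivity) (by positivity)
  have d1 : P * min (2 * (L * N * W * δ)) (prodK l₁ * W) * (3 * (prodK l₁ * W)) ≤
      G * (2 * (L * N * W * δ)) * (3 * (L * W)) := by
    have : prodK l₁ * W ≤ L * W := mul_le_mul_of_nonneg_right hK₁ (by positivity)
    exact mul_le_mul (mul_le_mul hP hmin hmin0 (by positivity)) (by linarith) (by positivity)
      (by positivity)
  have d2 : ε * (P * (prodK l₁ * W) ^ 2) ≤ δ * (G * (L * W) ^ 2) := by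
    have : prodK l₁ * W ≤ L * W := mul_le_mul_of_nonneg_right hK₁ (by positivity)
    have h2 : (prodK l₁ * W) ^ 2 ≤ (L * W) ^ 2 := by gcongr
    exact mul_le_mul hε' (mul_le_mul hP h2 (by positivity) (by positivity)) (by positivity)
      (by positivity)
  have d3 : (l₂.length : ℝ) * (ε * (P * (prodK l₁ * W) ^ 2) + ρ) ≤
      N * (δ * (G * (L * W) ^ 2) + δ) :=
    mul_le_mul hn₂ (by linarith) (by positivity) (by positivity)
  have d4 : prodK l₂ * ((P * min (2 * (L * N * W * δ)) (prodK l₁ * W) * (3 * (prodK l₁ * W)) + ρ) +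
      l₂.length * (ε * (P * (prodK l₁ * W) ^ 2) + ρ)) ≤
      L * ((G * (2 * (L * N * W * δ)) * (3 * (L * W)) + δ) +
        N * (δ * (G * (L * W) ^ 2) + δ)) :=
    mul_le_mul hK₂ (by linarith) (by positivity) (by positivity)
  refine d4.trans ?_
  set M : ℝ := L ^ 3 * W ^ 2 * G * N * δ with hM
  have m1 : L * (G * (2 * (L * N * W * δ)) * (3 * (L * W))) = 6 * M := by rw [hM]; ring
  have m2 : L * (N * (δ * (G * (L * W) ^ 2))) = M := by rw [hM]; ring
  have m3 : L * (N * δ) ≤ M := by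
    rw [hM]
    have c1 : L ≤ L ^ 3 := le_self_pow₀ hL1 (by norm_num)
    have c2 : 1 ≤ W ^ 2 := one_le_pow₀ hW1
    calc L * (N * δ) ≤ L ^ 3 * (N * δ) := by gcongr
      _ ≤ L ^ 3 * (N * δ) * (W ^ 2 * G) :=
          le_mul_of_one_le_right (by positivity) (one_le_mul_of_one_le_of_one_le c2 hG1)
      _ = _ := by ring
  have m4 : L * δ ≤ M := by
    refine le_trans ?_ m3
    have : δ ≤ N * δ := le_mul_of_one_le_left hδ0.le hN1
    exact mul_le_mul_of_nonneg_left this (by positivity)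
  have e1 : L * ((G * (2 * (L * N * W * δ)) * (3 * (L * W)) + δ) +
      N * (δ * (G * (L * W) ^ 2) + δ)) = L * (G * (2 * (L * N * W * δ)) * (3 * (L * W))) +
      L * (N * (δ * (G * (L * W) ^ 2))) + L * (N * δ) + L * δ := by ring
  rw [e1, m1, m2]
  linarith

end Pipe

end Vale.Agent.P338.R3.H334
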