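import Vale.Agent.P338.R3.H334.Fix

/-!
P338-D, module FIX: concrete steps on arrays of Gaussian integers.

An array is a function `X : J → ℤ[i]` on a finite index type `J` (for example cells times
coefficients); with scale `s` it means the array of complex numbers `X j / 2 ^ s`.
-/

namespace Vale.Agent.P338.R3.H334

open GaussianInt

/-- The complex number meant by a Gaussian integer at scale `s`. -/
noncomputable def reC (s : ℕ) (z : GaussianInt) : ℂ := toComplex z / 2 ^ s

/-- The complex array meant by an array of Gaussian integers at scale `s`. -/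
noncomputable def reA (s : ℕ) {J : Type} (X : J → GaussianInt) : J → ℂ := fun j => reC s (X j)

theorem reC_add (s : ℕ) (x y : GaussianInt) : reC s (x + y) = reC s x + reC s y := by
  simp [reC, add_div]

theorem reC_sub (s : ℕ) (x y : GaussianInt) : reC s (x - y) = reC s x - reC s y := by
  simp [reC, sub_div]

theorem reC_zero (s : ℕ) : reC s 0 = 0 := by simp [reC]

theorem reC_intMul (s : ℕ) (a : ℤ) (x : GaussianInt) :
    reC s ((a : GaussianInt) * x) = (a : ℂ) * reC s x := by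
  simp only [reC, map_mul, map_intCast]
  ring

theorem reC_sum (s : ℕ) {κ : Type} (S : Finset κ) (f : κ → GaussianInt) :
    reC s (∑ k ∈ S, f k) = ∑ k ∈ S, reC s (f k) := by
  simp [reC, map_sum, Finset.sum_div]

theorem tc_re (z : GaussianInt) : (toComplex z).re = (z.re : ℝ) := (GaussianInt.intCast_re z).symm

theorem tc_im (z : GaussianInt) : (toComplex z).im = (z.im : ℝ) := (GaussianInt.intCast_im z).symm

theorem norm_toComplex_le (z : GaussianInt) : ‖toComplex z‖ ≤ |(z.re : ℝ)| + |(z.im : ℝ)| := by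
  have h := Complex.norm_le_abs_re_add_abs_im (toComplex z)
  rwa [tc_re, tc_im] at h

theorem abs_re_le (z : GaussianInt) : |(z.re : ℝ)| ≤ ‖toComplex z‖ := by
  have h := Complex.abs_re_le_norm (toComplex z)
  rwa [tc_re] at h

theorem abs_im_le (z : GaussianInt) : |(z.im : ℝ)| ≤ ‖toComplex z‖ := by
  have h := Complex.abs_im_le_norm (toComplex z)
  rwa [tc_im] at h

/-! ### Rounding -/

/-- Division by `2 ^ p`, rounded down in both components. -/
def rnd (p : ℕ) (z : GaussianInt) : GaussianInt := ⟨z.re / 2 ^ p, z.im / 2 ^ p⟩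

@[simp] theorem rnd_re (p : ℕ) (z : GaussianInt) : (rnd p z).re = z.re / 2 ^ p := rfl

@[simp] theorem rnd_im (p : ℕ) (z : GaussianInt) : (rnd p z).im = z.im / 2 ^ p := rfl

theorem abs_floor_le (p : ℕ) (a : ℤ) : |((a / 2 ^ p : ℤ) : ℝ) - (a : ℝ) / 2 ^ p| ≤ 1 := by
  have h2 : (0 : ℤ) < 2 ^ p := by positivity
  have h3 : (0 : ℝ) < 2 ^ p := by positivity
  have h4 := Int.emod_add_mul_ediv a (2 ^ p)
  have h5 := Int.emod_nonneg a h2.ne'
  have h6 := Int.emod_lt_of_pos a h2
  have h7 : ((a % 2 ^ p : ℤ) : ℝ) + 2 ^ p * ((a / 2 ^ p : ℤ) : ℝ) = a := by exact_mod_cast h4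
  have h8 : (a : ℝ) / 2 ^ p = ((a % 2 ^ p : ℤ) : ℝ) / 2 ^ p + ((a / 2 ^ p : ℤ) : ℝ) := by
    rw [← h7]
    field_simp
  have h9 : (0 : ℝ) ≤ ((a % 2 ^ p : ℤ) : ℝ) / 2 ^ p := by positivity
  have h10 : ((a % 2 ^ p : ℤ) : ℝ) / 2 ^ p ≤ 1 := by
    rw [div_le_one h3]
    exact_mod_cast h6.le
  rw [h8, abs_le]
  constructor <;> linarith

theorem norm_rnd_sub (p : ℕ) (z : GaussianInt) :
    ‖toComplex (rnd p z) - toComplex z / 2 ^ p‖ ≤ 2 := by
  have h := Complex.norm_le_abs_re_add_abs_im (toComplex (rnd p z) - toComplex z / 2 ^ p)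
  have e : toComplex z / 2 ^ p = ((((z.re : ℝ) / 2 ^ p : ℝ)) : ℂ) +
      ((((z.im : ℝ) / 2 ^ p : ℝ)) : ℂ) * Complex.I := by
    rw [GaussianInt.toComplex_def]
    push_cast
    ring
  have h1 : (toComplex (rnd p z) - toComplex z / 2 ^ p).re =
      ((z.re / 2 ^ p : ℤ) : ℝ) - (z.re : ℝ) / 2 ^ p := by
    rw [e, Complex.sub_re, tc_re]
    simp only [Complex.add_re, Complex.ofReal_re, Complex.re_ofReal_mul, Complex.I_re, mul_zero,
      add_zero, rnd_re]
  have h2 : (toComplex (rnd p z) - toComplex z / 2 ^ p).im =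
      ((z.im / 2 ^ p : ℤ) : ℝ) - (z.im : ℝ) / 2 ^ p := by
    rw [e, Complex.sub_im, tc_im]
    simp only [Complex.add_im, Complex.ofReal_im, Complex.im_ofReal_mul, Complex.I_im, mul_one,
      zero_add, rnd_im]
  rw [h1, h2] at h
  have h3 := abs_floor_le p z.re
  have h4 := abs_floor_le p z.im
  linarith

theorem norm_reC_rnd (s p : ℕ) (z : GaussianInt) :
    ‖reC s (rnd p z) - toComplex z / 2 ^ p / 2 ^ s‖ ≤ 2 / 2 ^ s := by
  have e : reC s (rnd p z) - toComplex z / 2 ^ p / 2 ^ s =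
      (toComplex (rnd p z) - toComplex z / 2 ^ p) / 2 ^ s := by
    rw [reC]
    ring
  rw [e, norm_div]
  have h : ‖(2 : ℂ) ^ s‖ = 2 ^ s := by simp
  rw [h]
  exact div_le_div_of_nonneg_right (norm_rnd_sub p z) (by positivity)

/-! ### Exact linear steps -/

section Steps

variable {J J' : Type} [Fintype J] [Fintype J']

/-- The steps on arrays. -/
abbrev AStep (J : Type) [Fintype J] : Type := Step (J → GaussianInt) (J → ℂ)

/-- A step without rounding: both maps are given by the same formula. -/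
theorem ok_of_linear {s : ℕ} {ε ρ : ℝ} (hε : 0 ≤ ε) (hρ : 0 ≤ ρ) (st : AStep J)
    (hK : 1 ≤ st.K) (hsub : ∀ x y, st.ex (x - y) = st.ex x - st.ex y)
    (hle : ∀ x, ‖st.ex x‖ ≤ st.K * ‖x‖) (hre : ∀ X, reA s (st.it X) = st.ex (reA s X)) :
    Step.Ok (reA s) ε ρ st := by
  refine ⟨hK, hle, fun X x => ?_⟩
  rw [hre, ← hsub]
  have h := hle (reA s X - x)
  have h2 : 0 ≤ ε * ‖x‖ := by positivity
  linarith

/-- The step `x_j := ∑_{k ∈ S j} A j k x_k` with integer coefficients `A`. -/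
noncomputable def linStep (S : J → Finset J) (A : J → J → ℤ) (K : ℝ) : AStep J where
  ex x := fun j => ∑ k ∈ S j, (A j k : ℂ) * x k
  it X := fun j => ∑ k ∈ S j, (A j k : GaussianInt) * X k
  K := K

theorem ok_linStep {s : ℕ} {ε ρ : ℝ} (hε : 0 ≤ ε) (hρ : 0 ≤ ρ) {S : J → Finset J}
    {A : J → J → ℤ} {K : ℝ} (hK : 1 ≤ K) (hA : ∀ j, ∑ k ∈ S j, |(A j k : ℝ)| ≤ K) :
    Step.Ok (reA s) ε ρ (linStep S A K) := by
  refine ok_of_linear hε hρ _ hK ?_ ?_ ?_
  · intro x y
    funext j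
    simp [linStep, mul_sub, Finset.sum_sub_distrib]
  · intro x
    rw [pi_norm_le_iff_of_nonneg (mul_nonneg (by simp only [linStep]; linarith) (norm_nonneg _))]
    intro j
    simp only [linStep]
    calc ‖∑ k ∈ S j, (A j k : ℂ) * x k‖ ≤ ∑ k ∈ S j, ‖(A j k : ℂ) * x k‖ := norm_sum_le _ _
      _ ≤ ∑ k ∈ S j, |(A j k : ℝ)| * ‖x‖ := by
          refine Finset.sum_le_sum fun k _ => ?_
          rw [norm_mul, Complex.norm_intCast]
          exact mul_le_mul_of_nonneg_left (norm_le_pi_norm x k) (abs_nonneg _)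
      _ = (∑ k ∈ S j, |(A j k : ℝ)|) * ‖x‖ := (Finset.sum_mul _ _ _).symm
      _ ≤ K * ‖x‖ := mul_le_mul_of_nonneg_right (hA j) (norm_nonneg _)
  · intro X
    funext j
    simp only [linStep, reA]
    rw [reC_sum]
    refine Finset.sum_congr rfl fun k _ => ?_
    rw [reC_intMul]

/-- The same for coefficients `0, 1, -1` and at most `2 ^ l` terms. -/
theorem ok_linStep_pow {s : ℕ} {ε ρ : ℝ} (hε : 0 ≤ ε) (hρ : 0 ≤ ρ) {S : J → Finset J}
    {A : J → J → ℤ} {l : ℕ} (hA : ∀ j, ∀ k ∈ S j, |A j k| ≤ 1)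
    (hS : ∀ j, (S j).card ≤ 2 ^ l) : Step.Ok (reA s) ε ρ (linStep S A (2 ^ l)) := by
  refine ok_linStep hε hρ (one_le_pow₀ (by norm_num)) fun j => ?_
  calc ∑ k ∈ S j, |(A j k : ℝ)| ≤ ∑ _k ∈ S j, (1 : ℝ) := by
        refine Finset.sum_le_sum fun k hk => ?_
        have := hA j k hk
        exact_mod_cast this
    _ = (S j).card := by simp
    _ ≤ 2 ^ l := by exact_mod_cast hS j

/-! ### Permutations and restrictions of the index -/

/-- The step `x_j := x_{σ j}` (or `0`). -/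
noncomputable def mapStep (σ : J → Option J) : AStep J where
  ex x := fun j => (σ j).elim 0 x
  it X := fun j => (σ j).elim 0 X
  K := 1

theorem ok_mapStep {s : ℕ} {ε ρ : ℝ} (hε : 0 ≤ ε) (hρ : 0 ≤ ρ) (σ : J → Option J) :
    Step.Ok (reA s) ε ρ (mapStep σ) := by
  refine ok_of_linear hε hρ _ le_rfl ?_ ?_ ?_
  · intro x y
    funext j
    cases h : σ j <;> simp [mapStep, h]
  · intro x
    rw [pi_norm_le_iff_of_nonneg (mul_nonneg (by simp [mapStep]) (norm_nonneg _))]
    intro j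
    cases h : σ j
    · simp [mapStep, h]
    · simpa [mapStep, h] using norm_le_pi_norm x _
  · intro X
    funext j
    cases h : σ j <;> simp [mapStep, h, reA, reC_zero]

/-! ### Rounded diagonals -/

/-- The step `x_j := c_j x_j`, with approximations `C_j / 2 ^ p` of the constants `c_j`; the
integer map `f` is any map whose result is within `κ` of the exact product by `C_j / 2 ^ p`. -/
theorem ok_diag {s p : ℕ} {ε ρ κ : ℝ} (hε : 0 ≤ ε) (hκ : 0 ≤ κ) (hρ : κ / 2 ^ s ≤ ρ)
    {C : J → GaussianInt} {st : AStep J} {c : J → ℂ} (hex : ∀ x j, st.ex x j = c j * x j)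
    (hit : ∀ X j, ‖toComplex (st.it X j) - toComplex (C j) * toComplex (X j) / 2 ^ p‖ ≤ κ)
    (hK : 1 ≤ st.K) (hc : ∀ j, ‖c j‖ ≤ st.K) (hC : ∀ j, ‖reC p (C j)‖ ≤ st.K)
    (hcC : ∀ j, ‖reC p (C j) - c j‖ ≤ ε) : Step.Ok (reA s) ε ρ st := by
  have hρ0 : 0 ≤ ρ := le_trans (by positivity) hρ
  refine ⟨hK, ?_, ?_⟩
  · intro x
    rw [pi_norm_le_iff_of_nonneg (mul_nonneg (by linarith) (norm_nonneg _))]
    intro j
    rw [hex, norm_mul]
    exact mul_le_mul (hc j) (norm_le_pi_norm x j) (norm_nonneg _) (by linarith)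
  · intro X x
    rw [pi_norm_le_iff_of_nonneg]
    · intro j
      simp only [Pi.sub_apply, reA]
      have e : reC s (st.it X j) - st.ex x j =
          (toComplex (st.it X j) - toComplex (C j) * toComplex (X j) / 2 ^ p) / 2 ^ s +
          (reC p (C j) * (reC s (X j) - x j) + (reC p (C j) - c j) * x j) := by
        rw [hex]
        simp only [reC]
        ring
      rw [e]
      have h1 : ‖(toComplex (st.it X j) - toComplex (C j) * toComplex (X j) / 2 ^ p) / 2 ^ s‖ ≤
          κ / 2 ^ s := by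
        rw [norm_div]
        have h : ‖(2 : ℂ) ^ s‖ = 2 ^ s := by simp
        rw [h]
        exact div_le_div_of_nonneg_right (hit X j) (by positivity)
      have h2 : ‖reC p (C j) * (reC s (X j) - x j)‖ ≤ st.K * ‖reA s X - x‖ := by
        rw [norm_mul]
        refine mul_le_mul (hC j) ?_ (norm_nonneg _) (by linarith)
        exact norm_le_pi_norm (reA s X - x) j
      have h3 : ‖(reC p (C j) - c j) * x j‖ ≤ ε * ‖x‖ := by
        rw [norm_mul]
        exact mul_le_mul (hcC j) (norm_le_pi_norm x j) (norm_nonneg _) hε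
      calc _ ≤ ‖(toComplex (st.it X j) - toComplex (C j) * toComplex (X j) / 2 ^ p) / 2 ^ s‖ +
            (‖reC p (C j) * (reC s (X j) - x j)‖ + ‖(reC p (C j) - c j) * x j‖) :=
            (norm_add_le _ _).trans (add_le_add le_rfl (norm_add_le _ _))
        _ ≤ _ := by linarith
    · have : 0 ≤ ‖reA s X - x‖ := norm_nonneg _
      have : 0 ≤ ‖x‖ := norm_nonneg _
      positivity

/-- The step `x_j := c_j x_j`, with approximations `C_j / 2 ^ p` of the constants `c_j`, and
rounding. -/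
noncomputable def diagStep (p : ℕ) (C : J → GaussianInt) (c : J → ℂ) (K : ℝ) : AStep J where
  ex x := fun j => c j * x j
  it X := fun j => rnd p (C j * X j)
  K := K

theorem ok_diagStep {s p : ℕ} {ε ρ : ℝ} (hε : 0 ≤ ε) (hρ : 2 / 2 ^ s ≤ ρ) {C : J → GaussianInt}
    {c : J → ℂ} {K : ℝ} (hK : 1 ≤ K) (hc : ∀ j, ‖c j‖ ≤ K) (hC : ∀ j, ‖reC p (C j)‖ ≤ K)
    (hcC : ∀ j, ‖reC p (C j) - c j‖ ≤ ε) : Step.Ok (reA s) ε ρ (diagStep p C c K) :=
  ok_diag hε (by norm_num) hρ (C := C) (c := c) (p := p) (fun _ _ => rfl)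
    (fun X j => by
      have := norm_rnd_sub p (C j * X j)
      rwa [map_mul] at this) hK hc hC hcC

/-- Rounding every real product separately (as the machine does). -/
def rndMul (p : ℕ) (c x : GaussianInt) : GaussianInt :=
  ⟨x.re * c.re / 2 ^ p - x.im * c.im / 2 ^ p, x.re * c.im / 2 ^ p + x.im * c.re / 2 ^ p⟩

theorem norm_rndMul_sub (p : ℕ) (c x : GaussianInt) :
    ‖toComplex (rndMul p c x) - toComplex c * toComplex x / 2 ^ p‖ ≤ 4 := by
  have h := Complex.norm_le_abs_re_add_abs_im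
    (toComplex (rndMul p c x) - toComplex c * toComplex x / 2 ^ p)
  have e : toComplex c * toComplex x / 2 ^ p =
      ((((x.re * c.re : ℤ) : ℝ) / 2 ^ p - ((x.im * c.im : ℤ) : ℝ) / 2 ^ p : ℝ) : ℂ) +
      ((((x.re * c.im : ℤ) : ℝ) / 2 ^ p + ((x.im * c.re : ℤ) : ℝ) / 2 ^ p : ℝ) : ℂ) *
        Complex.I := by
    rw [GaussianInt.toComplex_def, GaussianInt.toComplex_def]
    push_cast
    ring_nf
    rw [Complex.I_sq]
    ring
  have h1 : (toComplex (rndMul p c x) - toComplex c * toComplex x / 2 ^ p).re =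
      (((x.re * c.re / 2 ^ p : ℤ) : ℝ) - ((x.re * c.re : ℤ) : ℝ) / 2 ^ p) -
      (((x.im * c.im / 2 ^ p : ℤ) : ℝ) - ((x.im * c.im : ℤ) : ℝ) / 2 ^ p) := by
    rw [e, Complex.sub_re, tc_re]
    simp only [Complex.add_re, Complex.ofReal_re, Complex.re_ofReal_mul, Complex.I_re, mul_zero,
      add_zero, rndMul]
    push_cast
    ring
  have h2 : (toComplex (rndMul p c x) - toComplex c * toComplex x / 2 ^ p).im =
      (((x.re * c.im / 2 ^ p : ℤ) : ℝ) - ((x.re * c.im : ℤ) : ℝ) / 2 ^ p) +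
      (((x.im * c.re / 2 ^ p : ℤ) : ℝ) - ((x.im * c.re : ℤ) : ℝ) / 2 ^ p) := by
    rw [e, Complex.sub_im, tc_im]
    simp only [Complex.add_im, Complex.ofReal_im, Complex.im_ofReal_mul, Complex.I_im, mul_one,
      zero_add, rndMul]
    push_cast
    ring
  rw [h1, h2] at h
  have g1 := abs_le.1 (abs_floor_le p (x.re * c.re))
  have g2 := abs_le.1 (abs_floor_le p (x.im * c.im))
  have g3 := abs_le.1 (abs_floor_le p (x.re * c.im))
  have g4 := abs_le.1 (abs_floor_le p (x.im * c.re))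
  refine h.trans ?_
  have k1 : |(((x.re * c.re / 2 ^ p : ℤ) : ℝ) - ((x.re * c.re : ℤ) : ℝ) / 2 ^ p) -
      (((x.im * c.im / 2 ^ p : ℤ) : ℝ) - ((x.im * c.im : ℤ) : ℝ) / 2 ^ p)| ≤ 2 := by
    rw [abs_le]
    constructor <;> linarith [g1.1, g1.2, g2.1, g2.2]
  have k2 : |(((x.re * c.im / 2 ^ p : ℤ) : ℝ) - ((x.re * c.im : ℤ) : ℝ) / 2 ^ p) +
      (((x.im * c.re / 2 ^ p : ℤ) : ℝ) - ((x.im * c.re : ℤ) : ℝ) / 2 ^ p)| ≤ 2 := by
    rw [abs_le]
    constructor <;> linarith [g3.1, g3.2, g4.1, g4.2]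
  linarith

/-- The step `x_j := c_j x_j` with `rndMul`. -/
noncomputable def diagStep' (p : ℕ) (C : J → GaussianInt) (c : J → ℂ) (K : ℝ) : AStep J where
  ex x := fun j => c j * x j
  it X := fun j => rndMul p (C j) (X j)
  K := K

theorem ok_diagStep' {s p : ℕ} {ε ρ : ℝ} (hε : 0 ≤ ε) (hρ : 4 / 2 ^ s ≤ ρ) {C : J → GaussianInt}
    {c : J → ℂ} {K : ℝ} (hK : 1 ≤ K) (hc : ∀ j, ‖c j‖ ≤ K) (hC : ∀ j, ‖reC p (C j)‖ ≤ K)
    (hcC : ∀ j, ‖reC p (C j) - c j‖ ≤ ε) : Step.Ok (reA s) ε ρ (diagStep' p C c K) :=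
  ok_diag hε (by norm_num) hρ (C := C) (c := c) (p := p) (fun _ _ => rfl)
    (fun X j => norm_rndMul_sub p (C j) (X j)) hK hc hC hcC

/-! ### Exact scalings -/

/-- The step `x_j := 2 ^ (e j) x_j`, without rounding. -/
noncomputable def upStep (e : J → ℕ) (l : ℕ) : AStep J where
  ex x := fun j => 2 ^ e j * x j
  it X := fun j => 2 ^ e j * X j
  K := 2 ^ l

theorem ok_upStep {s : ℕ} {ε ρ : ℝ} (hε : 0 ≤ ε) (hρ : 0 ≤ ρ) {e : J → ℕ} {l : ℕ}
    (he : ∀ j, e j ≤ l) : Step.Ok (reA s) ε ρ (upStep e l) := by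
  refine ok_of_linear hε hρ _ (one_le_pow₀ (by norm_num)) ?_ ?_ ?_
  · intro x y
    funext j
    simp [upStep, mul_sub]
  · intro x
    rw [pi_norm_le_iff_of_nonneg (mul_nonneg (by simp [upStep]) (norm_nonneg _))]
    intro j
    simp only [upStep, norm_mul, norm_pow, Complex.norm_ofNat]
    exact mul_le_mul (pow_le_pow_right₀ (by norm_num) (he j)) (norm_le_pi_norm x j)
      (norm_nonneg _) (by positivity)
  · intro X
    funext j
    simp only [upStep, reA, reC, map_mul, map_pow, map_ofNat]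
    ring

/-- The step `x_j := 2 ^ (- e j) x_j`, rounded. -/
noncomputable def downStep (e : J → ℕ) : AStep J where
  ex x := fun j => x j / 2 ^ e j
  it X := fun j => rnd (e j) (X j)
  K := 1

theorem ok_downStep {s : ℕ} {ε ρ : ℝ} (hε : 0 ≤ ε) (hρ : 2 / 2 ^ s ≤ ρ) (e : J → ℕ) :
    Step.Ok (reA s) ε ρ (downStep e) := by
  have hρ0 : 0 ≤ ρ := le_trans (by positivity) hρ
  have hdiv : ∀ (k : ℕ) (z : ℂ), ‖z / 2 ^ k‖ ≤ ‖z‖ := by
    intro k z
    rw [norm_div]
    have h : ‖(2 : ℂ) ^ k‖ = 2 ^ k := by simp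
    rw [h]
    exact div_le_self (norm_nonneg _) (one_le_pow₀ (by norm_num))
  refine ⟨le_rfl, ?_, ?_⟩
  · intro x
    rw [pi_norm_le_iff_of_nonneg (mul_nonneg (by simp [downStep]) (norm_nonneg _))]
    intro j
    simp only [downStep, one_mul]
    exact (hdiv _ _).trans (norm_le_pi_norm x j)
  · intro X x
    rw [pi_norm_le_iff_of_nonneg]
    · intro j
      simp only [Pi.sub_apply, reA, downStep, one_mul]
      have e1 : reC s (rnd (e j) (X j)) - x j / 2 ^ e j =
          (reC s (rnd (e j) (X j)) - toComplex (X j) / 2 ^ e j / 2 ^ s) +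
          (reC s (X j) - x j) / 2 ^ e j := by
        simp only [reC]
        ring
      rw [e1]
      have h1 := norm_reC_rnd s (e j) (X j)
      have h2 := (hdiv (e j) (reC s (X j) - x j)).trans (norm_le_pi_norm (reA s X - x) j)
      have h3 : 0 ≤ ε * ‖x‖ := by positivity
      calc _ ≤ _ := norm_add_le _ _
        _ ≤ _ := by linarith
    · have : 0 ≤ ‖reA s X - x‖ := norm_nonneg _
      have : 0 ≤ ‖x‖ := norm_nonneg _
      simp only [downStep]
      positivity

end Steps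

/-! ### Products of cells -/

section Product

variable {I : Type} [Fintype I] {m : ℕ}

/-- The product of polynomials, truncated at degree `m`, with coefficients in a commutative
semiring. -/
def cellMul {R : Type} [CommSemiring R] (m : ℕ) (x y : Fin m → R) : Fin m → R := fun k =>
  ∑ a : Fin m, ∑ b : Fin m, if (a : ℕ) + b = k then x a * y b else 0

theorem cellMul_eq {R : Type} [CommSemiring R] (x y : Fin m → R) (k : Fin m) :
    cellMul m x y k = ∑ a : Fin m, if h : (a : ℕ) ≤ k then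
      x a * y ⟨k - a, by omega⟩ else 0 := by
  unfold cellMul
  refine Finset.sum_congr rfl fun a _ => ?_
  by_cases h : (a : ℕ) ≤ k
  · rw [dif_pos h, Finset.sum_eq_single (⟨k - a, by omega⟩ : Fin m)]
    · rw [if_pos (by simp; omega)]
    · intro b _ hb
      rw [if_neg]
      intro h2
      exact hb (Fin.ext (by simp; omega))
    · simp
  · rw [dif_neg h]
    exact Finset.sum_eq_zero fun b _ => if_neg (by omega)

/-- The product of two arrays of cells, exact. -/
def arrMulC (I : Type) (m : ℕ) {R : Type} [CommSemiring R] (x y : I × Fin m → R) :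
    I × Fin m → R := fun j => cellMul m (fun a => x (j.1, a)) (fun a => y (j.1, a)) j.2

/-- The rounding of a product: any map within `κ`. -/
def arrMulK (I : Type) (m s : ℕ) (κ : ℝ) (f : (I × Fin m → GaussianInt) →
    (I × Fin m → GaussianInt) → I × Fin m → GaussianInt) : Prop :=
  ∀ X Y j, ‖toComplex (f X Y j) - toComplex (arrMulC I m X Y j) / 2 ^ s‖ ≤ κ

/-- The product of two arrays of cells, with rounding. -/
def arrMulZ (I : Type) (m s : ℕ) (X Y : I × Fin m → GaussianInt) : I × Fin m → GaussianInt :=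
  fun j => rnd s (arrMulC I m X Y j)

theorem norm_cellMul_le (x y : Fin m → ℂ) {a b : ℝ} (hx : ∀ k, ‖x k‖ ≤ a) (hy : ∀ k, ‖y k‖ ≤ b)
    (ha : 0 ≤ a) (hb : 0 ≤ b) (k : Fin m) : ‖cellMul m x y k‖ ≤ m * a * b := by
  rw [cellMul_eq]
  calc _ ≤ ∑ _a : Fin m, a * b := by
        refine (norm_sum_le _ _).trans (Finset.sum_le_sum fun c _ => ?_)
        split_ifs with h
        · rw [norm_mul]
          exact mul_le_mul (hx _) (hy _) (norm_nonneg _) ha
        · simpa using mul_nonneg ha hb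
    _ = m * a * b := by
        simp
        ring

theorem prodOk_cells' (I : Type) [Fintype I] (m s : ℕ) {κ : ℝ} (hκ : 0 ≤ κ)
    {f : (I × Fin m → GaussianInt) → (I × Fin m → GaussianInt) → I × Fin m → GaussianInt}
    (hf : arrMulK I m s κ f) :
    ProdOk (reA s) (reA s) (arrMulC I m) f (m : ℝ) (κ / 2 ^ s) := by
  refine ⟨by positivity, ?_, ?_, ?_, ?_⟩
  · intro x y
    rw [pi_norm_le_iff_of_nonneg (by positivity)]
    intro j
    exact norm_cellMul_le _ _ (fun k => norm_le_pi_norm x _) (fun k => norm_le_pi_norm y _)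
      (norm_nonneg _) (norm_nonneg _) _
  · intro x x' y
    funext j
    simp only [arrMulC, cellMul, Pi.sub_apply]
    rw [← Finset.sum_sub_distrib]
    refine Finset.sum_congr rfl fun a _ => ?_
    rw [← Finset.sum_sub_distrib]
    refine Finset.sum_congr rfl fun b _ => ?_
    split_ifs
    · ring
    · ring
  · intro x y y'
    funext j
    simp only [arrMulC, cellMul, Pi.sub_apply]
    rw [← Finset.sum_sub_distrib]
    refine Finset.sum_congr rfl fun a _ => ?_
    rw [← Finset.sum_sub_distrib]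
    refine Finset.sum_congr rfl fun b _ => ?_
    split_ifs
    · ring
    · ring
  · intro X Y
    rw [pi_norm_le_iff_of_nonneg (by positivity)]
    intro j
    have e : arrMulC I m (reA s X) (reA s Y) j =
        toComplex (arrMulC I m X Y j) / 2 ^ s / 2 ^ s := by
      simp only [arrMulC, cellMul, reA, reC, map_sum, Finset.sum_div]
      refine Finset.sum_congr rfl fun a _ => Finset.sum_congr rfl fun b _ => ?_
      split_ifs
      · rw [map_mul]
        ring
      · simp
    have e2 : reA s (f X Y) j - toComplex (arrMulC I m X Y j) / 2 ^ s / 2 ^ s =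
        (toComplex (f X Y j) - toComplex (arrMulC I m X Y j) / 2 ^ s) / 2 ^ s := by
      simp only [reA, reC]
      ring
    rw [Pi.sub_apply, e, e2, norm_div]
    have h : ‖(2 : ℂ) ^ s‖ = 2 ^ s := by simp
    rw [h]
    exact div_le_div_of_nonneg_right (hf X Y j) (by positivity)

theorem prodOk_cells (I : Type) [Fintype I] (m s : ℕ) :
    ProdOk (reA s) (reA s) (arrMulC I m) (arrMulZ I m s) (m : ℝ) (2 / 2 ^ s) :=
  prodOk_cells' I m s (by norm_num) fun X Y j => norm_rnd_sub s (arrMulC I m X Y j)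

end Product

/-! ### The final rounding -/

/-- Rounding of the real part to the nearest integer. -/
def roundRe (s : ℕ) (z : GaussianInt) : ℤ := (2 * z.re + 2 ^ s) / 2 ^ (s + 1)

theorem roundRe_eq {s : ℕ} {z : GaussianInt} {k : ℤ} (h : ‖reC s z - k‖ ≤ 1 / 4) :
    roundRe s z = k := by
  have h1 := (Complex.abs_re_le_norm (reC s z - k)).trans h
  have e : (reC s z - (k : ℂ)).re = (z.re : ℝ) / 2 ^ s - k := by
    have e2 : reC s z = ((((z.re : ℝ) / 2 ^ s : ℝ)) : ℂ) +
        ((((z.im : ℝ) / 2 ^ s : ℝ)) : ℂ) * Complex.I := by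
      rw [reC, GaussianInt.toComplex_def]
      push_cast
      ring
    rw [e2]
    simp only [Complex.sub_re, Complex.add_re, Complex.ofReal_re, Complex.re_ofReal_mul,
      Complex.I_re, mul_zero, add_zero, Complex.intCast_re]
  rw [e] at h1
  have h3 : (0 : ℝ) < 2 ^ s := by positivity
  rw [abs_le] at h1
  obtain ⟨h4, h5⟩ := h1
  have h6 : (k - 1 / 4 : ℝ) * 2 ^ s ≤ z.re := by
    rw [← le_div_iff₀ h3]
    linarith
  have h7 : (z.re : ℝ) ≤ (k + 1 / 4) * 2 ^ s := by
    rw [← div_le_iff₀ h3]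
    linarith
  unfold roundRe
  have h8 : (0 : ℤ) < 2 ^ (s + 1) := by positivity
  rw [Int.ediv_eq_iff_of_pos h8]
  have h9 : ((2 : ℝ) ^ (s + 1)) = 2 * 2 ^ s := by ring
  constructor
  · have : (k : ℝ) * 2 ^ (s + 1) ≤ 2 * z.re + 2 ^ s := by
      rw [h9]
      nlinarith
    exact_mod_cast this
  · have : (2 * z.re + 2 ^ s : ℝ) < k * 2 ^ (s + 1) + 2 ^ (s + 1) := by
      rw [h9]
      nlinarith
    exact_mod_cast this

end Vale.Agent.P338.R3.H334
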