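import Vale.Agent.P338.R3.H334.FixGI

/-!
P338-D, module FIX: arithmetic modulo `2 ^ b`, no overflow, exact result.

`wrap b` is the balanced residue modulo `2 ^ b` (two's complement). A machine that computes every
step modulo `2 ^ b` computes exactly the integer run, as long as the arrays at the step boundaries
are bounded; the bounds follow from the Lipschitz constants.
-/

namespace Vale.Agent.P338.R3.H334

open GaussianInt

/-! ### Balanced residues -/

/-- Balanced residue modulo `2 ^ b`. -/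
def wrap (b : ℕ) (z : ℤ) : ℤ := Int.bmod z (2 ^ b)

theorem wrap_eq_self {b : ℕ} (hb : 1 ≤ b) {z : ℤ} (h1 : -2 ^ (b - 1) ≤ z)
    (h2 : z < 2 ^ (b - 1)) : wrap b z = z := by
  obtain ⟨c, rfl⟩ : ∃ c, b = c + 1 := ⟨b - 1, by omega⟩
  simp only [Nat.add_sub_cancel] at h1 h2
  have h3 : (2 : ℤ) ^ (c + 1) = 2 * 2 ^ c := by ring
  have h4 : (0 : ℤ) < 2 ^ c := by positivity
  unfold wrap
  rw [Int.bmod_def]
  push_cast
  rcases lt_or_ge z 0 with hz | hz
  · have h5 : z % 2 ^ (c + 1) = z + 2 ^ (c + 1) := by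
      rw [← Int.add_emod_right]
      exact Int.emod_eq_of_lt (by omega) (by omega)
    rw [h5, if_neg (by omega)]
    ring
  · have h5 : z % 2 ^ (c + 1) = z := Int.emod_eq_of_lt hz (by omega)
    rw [h5, if_pos (by omega)]

/-- Balanced residues of Gaussian integers. -/
def wrapG (b : ℕ) (z : GaussianInt) : GaussianInt := ⟨wrap b z.re, wrap b z.im⟩

/-- Balanced residues of arrays. -/
def wrapA (b : ℕ) {J : Type} (X : J → GaussianInt) : J → GaussianInt := fun j => wrapG b (X j)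

/-- All entries of the array fit into `b` bits. -/
def Bd (b : ℕ) {J : Type} (X : J → GaussianInt) : Prop :=
  ∀ j, (-2 ^ (b - 1) ≤ (X j).re ∧ (X j).re < 2 ^ (b - 1)) ∧
    (-2 ^ (b - 1) ≤ (X j).im ∧ (X j).im < 2 ^ (b - 1))

theorem wrapA_eq_self {b : ℕ} (hb : 1 ≤ b) {J : Type} {X : J → GaussianInt} (h : Bd b X) :
    wrapA b X = X := by
  funext j
  unfold wrapA wrapG
  rw [wrap_eq_self hb (h j).1.1 (h j).1.2, wrap_eq_self hb (h j).2.1 (h j).2.2]

theorem bd_of_norm {s b l : ℕ} {J : Type} [Fintype J] (hl : l + s + 2 ≤ b) {X : J → GaussianInt}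
    (h : ‖reA s X‖ ≤ 2 ^ l) : Bd b X := by
  intro j
  have h1 : ‖toComplex (X j)‖ ≤ 2 ^ (l + s) := by
    have h2 := (norm_le_pi_norm (reA s X) j).trans h
    simp only [reA, reC, norm_div] at h2
    have h3 : ‖(2 : ℂ) ^ s‖ = 2 ^ s := by simp
    rw [h3, div_le_iff₀ (by positivity)] at h2
    rw [pow_add]
    exact h2
  have h4 : (2 : ℝ) ^ (l + s) < 2 ^ (b - 1) := pow_lt_pow_right₀ (by norm_num) (by omega)
  have h5 := (abs_re_le (X j)).trans h1
  have h6 := (abs_im_le (X j)).trans h1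
  have h7 := abs_lt.1 (lt_of_le_of_lt h5 h4)
  have h8 := abs_lt.1 (lt_of_le_of_lt h6 h4)
  refine ⟨⟨?_, ?_⟩, ?_, ?_⟩
  · have := h7.1.le
    exact_mod_cast this
  · have := h7.2
    exact_mod_cast this
  · have := h8.1.le
    exact_mod_cast this
  · have := h8.2
    exact_mod_cast this

/-! ### The run modulo `2 ^ b` -/

section Run

variable {J : Type} [Fintype J]

/-- The run of the machine: `mt st` is what the machine does for the step `st`. -/
def mtRun (mt : AStep J → (J → GaussianInt) → J → GaussianInt) (l : List (AStep J))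
    (X : J → GaussianInt) : J → GaussianInt := l.foldl (fun X st => mt st X) X

/-- **No overflow: the run modulo `2 ^ b` is the integer run.** -/
theorem mtRun_eq {b : ℕ} (hb : 1 ≤ b) {mt : AStep J → (J → GaussianInt) → J → GaussianInt}
    {l : List (AStep J)} (hmt : ∀ st ∈ l, ∀ X, Bd b X → mt st X = wrapA b (st.it X))
    {X : J → GaussianInt} (hbd : ∀ k ≤ l.length, Bd b (itRun (l.take k) X)) :
    mtRun mt l X = itRun l X := by
  induction l using List.reverseRecOn with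
  | nil => rfl
  | append_singleton l a ih =>
    have h1 : ∀ k ≤ l.length, Bd b (itRun (l.take k) X) := by
      intro k hk
      have := hbd k (by simp; omega)
      rwa [List.take_append_of_le_length hk] at this
    have h2 := ih (fun st hst => hmt st (by simp [hst])) h1
    have e1 : mtRun mt (l ++ [a]) X = mt a (mtRun mt l X) := by simp [mtRun]
    have e2 : itRun (l ++ [a]) X = a.it (itRun l X) := by simp [itRun]
    have h3 := h1 l.length le_rfl
    rw [List.take_length] at h3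
    have h4 := hbd (l ++ [a]).length le_rfl
    rw [List.take_length, e2] at h4
    rw [e1, h2, hmt a (by simp) _ h3, e2, wrapA_eq_self hb h4]

/-- The bounds at the step boundaries, dyadic form. -/
theorem run_bd {s c ν Λ l₀ : ℕ} {ε ρ : ℝ} (hε : 0 ≤ ε) (hρ : 0 ≤ ρ) (hε' : ε ≤ 2 ^ c / 2 ^ s)
    (hρ' : ρ ≤ 2 ^ c / 2 ^ s) {l : List (AStep J)} (hl : ∀ st ∈ l, Step.Ok (reA s) ε ρ st)
    (hK : prodK l ≤ 2 ^ Λ) (hn : (l.length : ℝ) ≤ 2 ^ ν) (hs : ν + c ≤ s)
    {X : J → GaussianInt} (hX : ‖reA s X‖ ≤ 2 ^ l₀) (k : ℕ) :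
    ‖reA s (itRun (l.take k) X)‖ ≤ 2 ^ (Λ + l₀ + 2) := by
  have h1 := run_bound hε hρ (fun st hst => hl st (List.mem_of_mem_take hst)) X (l := l.take k)
  have h2 := prodK_take_le hl k
  have h3 : ((l.take k).length : ℝ) ≤ 2 ^ ν := by
    refine le_trans ?_ hn
    simp
  have h4 : (2 : ℝ) ^ ν * (2 ^ c / 2 ^ s) ≤ 1 := by
    rw [← mul_div_assoc, ← pow_add]
    exact div_le_one_of_le₀ (pow_le_pow_right₀ (by norm_num) hs) (by positivity)
  have h5 : ((l.take k).length : ℝ) * ε ≤ 1 :=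
    (mul_le_mul h3 hε' hε (by positivity)).trans h4
  have h6 : ((l.take k).length : ℝ) * ρ ≤ 1 :=
    (mul_le_mul h3 hρ' hρ (by positivity)).trans h4
  have h7 := one_le_prodK (re := reA s) (ε := ε) (ρ := ρ) (l := l.take k)
    fun st hst => hl st (List.mem_of_mem_take hst)
  have h8 : (1 : ℝ) ≤ 2 ^ l₀ := one_le_pow₀ (by norm_num)
  have h9 : (1 + ((l.take k).length : ℝ) * ε) * ‖reA s X‖ + (l.take k).length * ρ ≤
      4 * 2 ^ l₀ := by
    have h10 : (1 + ((l.take k).length : ℝ) * ε) * ‖reA s X‖ ≤ 2 * 2 ^ l₀ :=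
      mul_le_mul (by linarith) hX (norm_nonneg _) (by norm_num)
    linarith
  calc _ ≤ _ := h1
    _ ≤ 2 ^ Λ * (4 * 2 ^ l₀) := by
        refine mul_le_mul (h2.trans hK) h9 ?_ (by positivity)
        positivity
    _ = _ := by ring

end Run

/-! ### The whole computation -/

section Whole

variable {I : Type} [Fintype I] {m : ℕ}

/-- **FIX, final form.** Let `l₁` be the forward steps, `l₂` the inverse steps, on arrays of cells
(`m` coefficients each); `mt`, `mp` the machine's maps modulo `2 ^ b`. If the exact complex run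
gives an array of integers `k`, then rounding the result of the machine gives `k`. -/
theorem whole_exact {s b c ν Λ w g : ℕ} {ε ρ κ : ℝ} (hε : 0 ≤ ε) (hρ : 0 ≤ ρ) (hκ : 0 ≤ κ)
    (hε' : ε ≤ 2 ^ c / 2 ^ s) (hρ' : ρ ≤ 2 ^ c / 2 ^ s) (hκρ : κ / 2 ^ s ≤ ρ)
    {l₁ l₂ : List (AStep (I × Fin m))}
    (h₁ : ∀ st ∈ l₁, Step.Ok (reA s) ε ρ st) (h₂ : ∀ st ∈ l₂, Step.Ok (reA s) ε ρ st)
    (hK₁ : prodK l₁ ≤ 2 ^ Λ) (hK₂ : prodK l₂ ≤ 2 ^ Λ) (hm : (m : ℝ) ≤ 2 ^ g)
    (hn₁ : (l₁.length : ℝ) ≤ 2 ^ ν) (hn₂ : (l₂.length : ℝ) ≤ 2 ^ ν)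
    (hs : 3 * Λ + 2 * w + g + ν + c + 7 ≤ s) (hb : s + 3 * Λ + 2 * w + g + 10 ≤ b)
    {mt : AStep (I × Fin m) → (I × Fin m → GaussianInt) → I × Fin m → GaussianInt}
    (hmt : ∀ st ∈ l₁ ++ l₂, ∀ X, Bd b X → mt st X = wrapA b (st.it X))
    {f mp : (I × Fin m → GaussianInt) → (I × Fin m → GaussianInt) → I × Fin m → GaussianInt}
    (hf : arrMulK I m s κ f) (hmp : ∀ X Y, Bd b X → Bd b Y → mp X Y = wrapA b (f X Y))
    {X Y : I × Fin m → GaussianInt} (hX : ‖reA s X‖ ≤ 2 ^ w) (hY : ‖reA s Y‖ ≤ 2 ^ w)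
    {k : I × Fin m → ℤ}
    (hk : exRun l₂ (arrMulC I m (exRun l₁ (reA s X)) (exRun l₁ (reA s Y))) = fun j => (k j : ℂ)) :
    (fun j => roundRe s (mtRun mt l₂ (mp (mtRun mt l₁ X) (mtRun mt l₁ Y)) j)) = k := by
  have hb1 : 1 ≤ b := by omega
  have hsν : ν + c ≤ s := by omega
  have p1 : ∀ Z : I × Fin m → GaussianInt, ‖reA s Z‖ ≤ 2 ^ w →
      mtRun mt l₁ Z = itRun l₁ Z ∧ ‖reA s (itRun l₁ Z)‖ ≤ 2 ^ (Λ + w + 2) := by
    intro Z hZ
    have q := run_bd hε hρ hε' hρ' h₁ hK₁ hn₁ hsν hZ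
    refine ⟨mtRun_eq hb1 (fun st hst => hmt st (List.mem_append_left _ hst))
      fun k _ => bd_of_norm (l := Λ + w + 2) (s := s) (by omega) (q k), ?_⟩
    have := q l₁.length
    rwa [List.take_length] at this
  obtain ⟨x1, x2⟩ := p1 X hX
  obtain ⟨y1, y2⟩ := p1 Y hY
  have hP := prodOk_cells' I m s hκ hf
  set Z := f (itRun l₁ X) (itRun l₁ Y) with hZ
  have hκ1 : κ / 2 ^ s ≤ 1 := by
    refine (hκρ.trans hρ').trans ?_
    exact div_le_one_of_le₀ (pow_le_pow_right₀ (by norm_num) (by omega)) (by positivity)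
  have z1 : ‖reA s Z‖ ≤ 2 ^ (g + 2 * Λ + 2 * w + 5) := by
    have a1 := hP.close (itRun l₁ X) (itRun l₁ Y)
    have a2 := hP.le (reA s (itRun l₁ X)) (reA s (itRun l₁ Y))
    have a3 : ‖reA s Z‖ ≤ ‖reA s Z - arrMulC I m (reA s (itRun l₁ X)) (reA s (itRun l₁ Y))‖ +
        ‖arrMulC I m (reA s (itRun l₁ X)) (reA s (itRun l₁ Y))‖ := by
      have := norm_add_le (reA s Z - arrMulC I m (reA s (itRun l₁ X)) (reA s (itRun l₁ Y)))
        (arrMulC I m (reA s (itRun l₁ X)) (reA s (itRun l₁ Y)))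
      simpa using this
    have a4 : (m : ℝ) * ‖reA s (itRun l₁ X)‖ * ‖reA s (itRun l₁ Y)‖ ≤
        2 ^ g * 2 ^ (Λ + w + 2) * 2 ^ (Λ + w + 2) := by
      refine mul_le_mul (mul_le_mul hm x2 (norm_nonneg _) (by positivity)) y2 (norm_nonneg _)
        (by positivity)
    have a5 : (2 : ℝ) ^ g * 2 ^ (Λ + w + 2) * 2 ^ (Λ + w + 2) = 2 ^ (g + 2 * Λ + 2 * w + 4) := by
      ring
    have a6 : (1 : ℝ) ≤ 2 ^ (g + 2 * Λ + 2 * w + 4) := one_le_pow₀ (by norm_num)
    have a7 : (2 : ℝ) ^ (g + 2 * Λ + 2 * w + 5) = 2 * 2 ^ (g + 2 * Λ + 2 * w + 4) := by ring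
    rw [a7]
    linarith
  have z2 : mp (itRun l₁ X) (itRun l₁ Y) = Z := by
    rw [hmp _ _ (bd_of_norm (l := Λ + w + 2) (s := s) (by omega) x2)
      (bd_of_norm (l := Λ + w + 2) (s := s) (by omega) y2)]
    exact wrapA_eq_self hb1 (bd_of_norm (l := g + 2 * Λ + 2 * w + 5) (s := s) (by omega) z1)
  have z3 : mtRun mt l₂ Z = itRun l₂ Z := by
    have q := run_bd hε hρ hε' hρ' h₂ hK₂ hn₂ hsν z1
    exact mtRun_eq hb1 (fun st hst => hmt st (List.mem_append_right _ hst))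
      fun k _ => bd_of_norm (l := Λ + (g + 2 * Λ + 2 * w + 5) + 2) (s := s) (by omega) (q k)
  have hP' : ProdOk (reA s) (reA s) (arrMulC I m) f (m : ℝ) ρ :=
    ⟨hP.nonneg, hP.le, hP.sub_left, hP.sub_right, fun X Y => (hP.close X Y).trans hκρ⟩
  have hq := pipe_quarter (w := w) (Λ := Λ) (ν := ν) (c := c) (g := g) (s := s)
    hε hρ hε' hρ' h₁ h₂ hP' (X := X) (Y := Y) rfl rfl hX hY hK₁ hK₂ hm hn₁ hn₂ hs
  rw [hk] at hq
  funext j
  rw [x1, y1, z2, z3]
  refine roundRe_eq ?_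
  exact (norm_le_pi_norm _ j).trans hq

end Whole

end Vale.Agent.P338.R3.H334
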